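import Vale.Agent.P139.H308.TR
import Vale.Agent.P139.H201.Ext9
import Vale.Agent.P139.H605.Inst

/-!
# P139 / block L (helper308): the torus half of `H605.TData` in one structure

`torusPart : 1 ≤ m → IsProfile d m w Q → ∃ κ θ, TorusPart d m j w Q κ θ`, and `exists_C0`
(the order zero bound of the cut-off profile, independent of the order).
-/

open Set Filter Topology MeasureTheory
open scoped ComplexConjugate ContDiff FourierTransform SchwartzMap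

namespace Vale.Agent.P139.L

open Vale.Agent.P139.A Vale.Agent.P139.A.WA Vale.Agent.P139.BU Vale.Agent.P139.N
open Vale.Agent.P139.H42 Vale.Agent.P139.WA

variable {d k : ℕ}

/-- The extension operator on pairs (first component). -/
noncomputable def ExP (d j : ℕ) (ℓ : ℝ) : (X1 d j × X1 d j) →L[ℝ] WA d j :=
  ((H201.ExL c2 j ℓ).restrictScalars ℝ).comp (ContinuousLinearMap.fst ℝ _ _)

@[simp] theorem ExP_apply (j : ℕ) (ℓ : ℝ) (x : X1 d j × X1 d j) :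
    ExP d j ℓ x = H201.ExL c2 j ℓ x.1 := rfl

/-- The free flow on pairs as a real linear operator. -/
noncomputable def S0R (d m j : ℕ) (w r : ℝ) : (X1 d j × X1 d j) →L[ℝ] (X1 d j × X1 d j) :=
  (flowP d j zero_le_one (-(aa m) + Complex.I * w) (4 * Real.pi ^ 2) r).restrictScalars ℝ

@[simp] theorem S0R_apply (m j : ℕ) (w r : ℝ) (x : X1 d j × X1 d j) :
    S0R d m j w r x = flowP d j zero_le_one (-(aa m) + Complex.I * w) (4 * Real.pi ^ 2) r x := rfl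

theorem norm_S0R_le (m j : ℕ) (w : ℝ) {r : ℝ} (hr : 0 ≤ r) (x : X1 d j × X1 d j) :
    ‖S0R d m j w r x‖ ≤ Real.exp (-(aa m) * r) * ‖x‖ := by
  rw [S0R_apply]
  refine (ContinuousLinearMap.le_opNorm _ x).trans ?_
  have h := flowP_norm_le (d := d) (s := j) (κ := 1) zero_le_one (-(aa m) + Complex.I * w)
    (4 * Real.pi ^ 2) hr
  have h2 : ((-(aa m : ℂ) + Complex.I * w)).re = -(aa m) := by simp
  rw [h2] at h
  exact mul_le_mul_of_nonneg_right h (norm_nonneg x)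

theorem norm_S0R_le_one (m j : ℕ) (w : ℝ) {r : ℝ} (hr : 0 ≤ r) (x : X1 d j × X1 d j) :
    ‖S0R d m j w r x‖ ≤ ‖x‖ := by
  refine (norm_S0R_le m j w hr x).trans ?_
  have h1 : Real.exp (-(aa m) * r) ≤ 1 := by
    rw [Real.exp_le_one_iff]
    have := mul_nonneg (aa_nonneg m) hr
    linarith
  have := mul_le_mul_of_nonneg_right h1 (norm_nonneg x)
  rwa [one_mul] at this

/-- The torus half of `H605.TData` for `X = X1 d j × X1 d j`, `R = Rp (c1S d) j`,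
`Ex = ExP d j`, `mu = per (j+1) c2`, `S0 = S0R d m j w`. -/
structure TorusPart (d m j : ℕ) (w : ℝ) (Q : E d → ℂ) (κ : ℝ) (θ : ℝ → ℝ) : Prop where
  one_le : 1 ≤ κ
  θ_nonneg : ∀ ℓ, 0 ≤ θ ℓ
  θ_lim : Tendsto θ (𝓝[>] 0) (𝓝 0)
  W_le : ∀ ℓ, 0 < ℓ → ℓ ≤ 1 → Nn ℓ (j + 1) (Up (j + 1) Q ℓ) ≤ κ
  W_cont : ContinuousOn (fun ℓ : ℝ => (Up (j + 1) Q ℓ : WA d (j + 1))) (Ioc 0 1)
  R_le : ∀ ℓ, 0 < ℓ → ℓ ≤ 1 → ∀ v : WA d (j + 1), ‖Rp (c1S d) j ℓ v‖ ≤ κ * Nn ℓ (j + 1) v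
  R_cont : ∀ v : WA d (j + 1), ContinuousOn (fun ℓ => Rp (c1S d) j ℓ v) (Ioc 0 1)
  Ex_le : ∀ ℓ, 0 < ℓ → ℓ ≤ 1 → ∀ x : X1 d j × X1 d j, Nn ℓ j (ExP d j ℓ x) ≤ κ * ‖x‖
  ER : ∀ ℓ, 0 < ℓ → ℓ ≤ 1 → ∀ v : WA d (j + 1),
    ExP d j ℓ (Rp (c1S d) j ℓ v) = dn (Nat.le_succ j) (per (j + 1) c2 * v)
  Rb : ∀ V₁ V₂ : X1 d j, (∀ y, BU.ev V₁ y = W1 m (Q y)) → (∀ y, BU.ev V₂ y = W2 m (Q y)) →
    ∀ ℓ, 0 < ℓ → ℓ ≤ 1 → ∀ v : WA d (j + 1), Rp (c1S d) j ℓ (BW m (Up (j + 1) Q ℓ) v) =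
      BX zero_le_one m V₁ V₂ (Rp (c1S d) j ℓ v)
  K3 : ∀ ℓ r, 0 < ℓ → ℓ ≤ 1 → 0 ≤ r → ∀ v : WA d (j + 1),
    ‖Rp (c1S d) j (sc ℓ r) (N.Uf (aa m) w ℓ r 0 v) - S0R d m j w r (Rp (c1S d) j ℓ v)‖ ≤
      θ ℓ * Nn ℓ (j + 1) v
  K4 : ∀ ℓ r, 0 < ℓ → ℓ ≤ 1 → 0 ≤ r → ∀ v : WA d (j + 1),
    Nn (sc ℓ r) j (per (j + 1) c2 * N.Uf (aa m) w ℓ r 0 v
      - N.Uf (aa m) w ℓ r 0 (per (j + 1) c2 * v)) ≤ θ ℓ * Nn ℓ (j + 1) v
  Fb : ∀ ℓ, 0 < ℓ → ℓ ≤ 1 → ∀ v : WA d (j + 1),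
    Nn ℓ j (BW m (Up (j + 1) Q ℓ) v - per (j + 1) c2 * BW m (Up (j + 1) Q ℓ) v)
      ≤ θ ℓ * Nn ℓ (j + 1) v

theorem wn_Q {m : ℕ} (hm : 1 ≤ m) {w : ℝ} {Q : E d → ℂ} (hQ : IsProfile d m w Q) (s : ℕ) :
    Wn s Q := by
  obtain ⟨C, hC⟩ := H201.rep_Q hm hQ s
  exact Wn.of_rep hC

/-- The order zero bound of the cut-off profile does not depend on the order. -/
theorem exists_C0 {m : ℕ} (hm : 1 ≤ m) {w : ℝ} {Q : E d → ℂ} (hQ : IsProfile d m w Q) :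
    ∃ C0 : ℝ, 0 ≤ C0 ∧ ∀ (k : ℕ) (ℓ : ℝ), 0 < ℓ → ℓ ≤ 1 → Nn ℓ 0 (Up k Q ℓ) ≤ C0 :=
  W0_le (wn_Q hm hQ)

theorem torusPart {m : ℕ} (hm : 1 ≤ m) {w : ℝ} {Q : E d → ℂ} (hQ : IsProfile d m w Q) (j : ℕ) :
    ∃ (κ : ℝ) (θ : ℝ → ℝ), TorusPart d m j w Q κ θ := by
  obtain ⟨C1, hC1, hW⟩ := W_le (wn_Q hm hQ (j + 1))
  obtain ⟨CQ, hCQ⟩ := H201.rep_Q hm hQ (j + 1)
  obtain ⟨θF, hθF, hF⟩ := H201.Fb_tendsto (k := j + 1) (j := j) hm hCQ (Nat.le_succ j)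
  set cR := 2 * cst (𝓕 (c1S d) : 𝓢(E d, ℂ)) j with hcR
  have hcR0 : 0 ≤ cR := by
    have := cst_nonneg (𝓕 (c1S d) : 𝓢(E d, ℂ)) j
    positivity
  set cE := H201.CK2 (c2 : E d → ℂ) j with hcE
  have hcE0 : 0 < cE := H201.CK2_pos _ _
  set c3 := 2 * cK3 (c1S d) j with hc3
  have hc30 : 0 ≤ c3 := by
    have := cK3_nonneg (c1S d) j
    positivity
  have hc4 := cK4_nonneg d j
  refine ⟨1 + C1 + cR + cE, fun ℓ => |c3 * ℓ| + |cK4 d j * ℓ| + |θF ℓ|, ?_⟩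
  have hNn : ∀ ℓ : ℝ, 0 < ℓ → ℓ ≤ 1 → ∀ v : WA d (j + 1), 0 ≤ Nn ℓ (j + 1) v :=
    fun ℓ h0 _ v => N.Nn_nonneg h0.le _ v
  have hNj : ∀ ℓ : ℝ, 0 < ℓ → ℓ ≤ 1 → ∀ v : WA d (j + 1), Nn ℓ j v ≤ Nn ℓ (j + 1) v :=
    fun ℓ h0 h1 v => Nn_mono_right h0.le h1 (Nat.le_succ j) le_rfl v
  refine ⟨by linarith, fun ℓ => by positivity, ?_, ?_, W_cont (wn_Q hm hQ _), ?_, ?_, ?_, ?_, ?_,
    ?_, ?_, ?_⟩
  · have h1 : Tendsto (fun ℓ : ℝ => |c3 * ℓ|) (𝓝[>] 0) (𝓝 0) := by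
      have : Tendsto (fun ℓ : ℝ => |c3 * ℓ|) (𝓝 0) (𝓝 |c3 * 0|) :=
        (continuous_const.mul continuous_id).abs.tendsto 0
      rw [mul_zero, abs_zero] at this
      exact this.mono_left nhdsWithin_le_nhds
    have h2 : Tendsto (fun ℓ : ℝ => |cK4 d j * ℓ|) (𝓝[>] 0) (𝓝 0) := by
      have : Tendsto (fun ℓ : ℝ => |cK4 d j * ℓ|) (𝓝 0) (𝓝 |cK4 d j * 0|) :=
        (continuous_const.mul continuous_id).abs.tendsto 0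
      rw [mul_zero, abs_zero] at this
      exact this.mono_left nhdsWithin_le_nhds
    have h3 := hθF.abs
    rw [abs_zero] at h3
    have h4 := (h1.add h2).add h3
    rw [add_zero, add_zero] at h4
    exact h4
  · intro ℓ h0 h1
    have := hW ℓ h0 h1
    linarith
  · intro ℓ h0 h1 v
    refine (norm_Rp_le (c1S d) (Nat.le_succ j) h0 h1 v).trans ?_
    have h2 := hNj ℓ h0 h1 v
    have h3 := hNn ℓ h0 h1 v
    calc cR * Nn ℓ j v ≤ cR * Nn ℓ (j + 1) v := by gcongr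
      _ ≤ (1 + C1 + cR + cE) * Nn ℓ (j + 1) v := by gcongr; linarith
  · intro v
    exact continuousOn_Rp (c1S d) (Nat.le_succ j) continuousOn_id (fun y hy => hy.1)
      (fun y hy => hy.2) continuousOn_const
  · intro ℓ h0 h1 x
    rw [ExP_apply]
    refine (H201.Nn_ExL_le H201.cutf_c2 h0 h1 x.1).trans ?_
    have h2 : ‖x.1‖ ≤ ‖x‖ := norm_fst_le x
    calc cE * ‖x.1‖ ≤ cE * ‖x‖ := by gcongr
      _ ≤ (1 + C1 + cR + cE) * ‖x‖ := by gcongr; linarith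
  · intro ℓ h0 h1 v
    rw [ExP_apply]
    exact H201.ExL_restr (Nat.le_succ j) h0 h1 v fun y => by
      rw [Rp_eq]
      exact ev_Rs (c1S d) (Nat.le_succ j) h0 h1 v y
  · intro V₁ V₂ hV1 hV2 ℓ h0 h1 v
    exact RbX (Nat.le_succ j) h0 h1 hCQ hV1 hV2 v
  · intro ℓ r h0 h1 hr v
    have h := K3X m w (c1S d) (k := j + 1) le_rfl h0 h1 le_rfl hr v
    rw [sub_zero, sc_zero] at h
    refine h.trans ?_
    have h3 := hNn ℓ h0 h1 v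
    have h4 : c3 * ℓ ≤ |c3 * ℓ| + |cK4 d j * ℓ| + |θF ℓ| := by
      have := le_abs_self (c3 * ℓ)
      have := abs_nonneg (cK4 d j * ℓ)
      have := abs_nonneg (θF ℓ)
      linarith
    exact mul_le_mul_of_nonneg_right h4 h3
  · intro ℓ r h0 h1 hr v
    have h := K4mu m w h0 h1 hr (k := j + 1) le_rfl v
    refine le_trans h ?_
    have h3 := hNn ℓ h0 h1 v
    have h4 : cK4 d j * ℓ ≤ |c3 * ℓ| + |cK4 d j * ℓ| + |θF ℓ| := by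
      have := le_abs_self (cK4 d j * ℓ)
      have := abs_nonneg (c3 * ℓ)
      have := abs_nonneg (θF ℓ)
      linarith
    exact mul_le_mul_of_nonneg_right h4 h3
  · intro ℓ h0 h1 v
    refine (hF ℓ h0 h1 v).trans ?_
    have h2 := hNj ℓ h0 h1 v
    have h3 := hNn ℓ h0 h1 v
    have h5 : 0 ≤ Nn ℓ j v := N.Nn_nonneg h0.le _ v
    have h4 : θF ℓ ≤ |c3 * ℓ| + |cK4 d j * ℓ| + |θF ℓ| := by
      have := le_abs_self (θF ℓ)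
      have := abs_nonneg (c3 * ℓ)
      have := abs_nonneg (cK4 d j * ℓ)
      linarith
    have h6 : 0 ≤ |c3 * ℓ| + |cK4 d j * ℓ| + |θF ℓ| := by positivity
    calc θF ℓ * Nn ℓ j v ≤ (|c3 * ℓ| + |cK4 d j * ℓ| + |θF ℓ|) * Nn ℓ j v := by gcongr
      _ ≤ _ := by gcongr

end Vale.Agent.P139.L
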