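import Vale.Agent.P139.H308.Restr2
import Vale.Agent.P139.H42.Lin
import Vale.Agent.P139.H579.Cut
import Vale.Agent.P139.H579.Nonlin
import Vale.Agent.P139.H201.Ext4

/-!
# P139 / block L (helper308): the restriction operator on pairs

* `K3P` : the restriction operator on pairs against the free flow on pairs;
* `ev_Up` : values of the cut-off profile;
* `Rb` : the restriction operator intertwines the linearised potentials.
-/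

open Set Filter Topology MeasureTheory
open scoped ComplexConjugate ContDiff FourierTransform SchwartzMap

namespace Vale.Agent.P139.L

open Vale.Agent.P139.A Vale.Agent.P139.A.WA Vale.Agent.P139.BU Vale.Agent.P139.N
open Vale.Agent.P139.H42 Vale.Agent.P139.WA

variable {d k : ℕ}

/-- The cut-off `c1` as a Schwartz function. -/
noncomputable def c1S (d : ℕ) : 𝓢(E d, ℂ) := hasCompactSupport_c1.toSchwartzMap contDiff_c1

@[simp] theorem c1S_apply (x : E d) : c1S d x = c1 x := rfl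

/-- The constant `-a + i w` of the linear equation. -/
noncomputable def cc (m : ℕ) (w : ℝ) : ℂ := ((-(aa m) : ℝ) : ℂ) + Complex.I * w

theorem cc_re (m : ℕ) (w : ℝ) : (cc m w).re = -(aa m) := by simp [cc]

/-- The free flow on pairs. -/
noncomputable def S0p (m : ℕ) (w : ℝ) (j : ℕ) (r : ℝ) :
    (X1 d j × X1 d j) →L[ℂ] (X1 d j × X1 d j) :=
  flowP d j zero_le_one (cc m w) (4 * Real.pi ^ 2) r

theorem S0x_eq (m : ℕ) (w : ℝ) (j : ℕ) (r : ℝ) :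
    (S0x m w j r : X1 d j →L[ℂ] X1 d j) = flowK d j zero_le_one (cc m w) (4 * Real.pi ^ 2) r := rfl

theorem S0p_star (m : ℕ) (w : ℝ) (j : ℕ) {r : ℝ} (hr : 0 ≤ r) (f : X1 d j) :
    S0p m w j r (f, starX zero_le_one f) =
      (S0x m w j r f, starX zero_le_one (S0x m w j r f)) := by
  rw [S0x_eq, star_flowK zero_le_one (cc m w) (4 * Real.pi ^ 2) hr]
  rfl

theorem norm_pair_star {j : ℕ} (f : X1 d j) :
    ‖((f, starX zero_le_one f) : X1 d j × X1 d j)‖ = ‖f‖ := by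
  rw [Prod.norm_def]
  simp only [norm_starX, max_self]

theorem Rp_eq (χ : 𝓢(E d, ℂ)) (j : ℕ) (ℓ : ℝ) (v : WA d k) :
    Rp χ j ℓ v = (Rs χ j ℓ v, starX zero_le_one (Rs χ j ℓ v)) := rfl

theorem norm_Rp (χ : 𝓢(E d, ℂ)) (j : ℕ) (ℓ : ℝ) (v : WA d k) : ‖Rp χ j ℓ v‖ = ‖Rs χ j ℓ v‖ := by
  rw [Rp_eq, norm_pair_star]

theorem starX_sub {j : ℕ} (f g : X1 d j) :
    starX zero_le_one (f - g) = starX zero_le_one f - starX zero_le_one g := by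
  have := map_sub (starL (d := d) (s := j) (κ := 1) zero_le_one) f g
  simpa only [BU.starL_apply] using this

/-- (K3) on pairs. -/
theorem K3P (m : ℕ) (w : ℝ) (χ : 𝓢(E d, ℂ)) {j : ℕ} (hj : j + 1 ≤ k) {ℓ s t : ℝ}
    (hℓ : 0 < ℓ) (hℓ1 : ℓ ≤ 1) (hs : 0 ≤ s) (hst : s ≤ t) (v : WA d k) :
    ‖Rp χ j (sc ℓ t) (N.Uf (aa m) w ℓ t s v) - S0p m w j (t - s) (Rp χ j (sc ℓ s) v)‖ ≤
      2 * cK3 χ j * ℓ * Nn (sc ℓ s) (j + 1) v := by
  rw [Rp_eq, Rp_eq, S0p_star m w j (by linarith : 0 ≤ t - s), Prod.mk_sub_mk, ← starX_sub,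
    norm_pair_star]
  exact K3N m w χ hj hℓ hℓ1 hs hst v

/-- (K1) on pairs. -/
theorem norm_Rp_le (χ : 𝓢(E d, ℂ)) {j : ℕ} (hj : j ≤ k) {ℓ : ℝ} (hℓ : 0 < ℓ) (hℓ1 : ℓ ≤ 1)
    (v : WA d k) : ‖Rp χ j ℓ v‖ ≤ 2 * cst (𝓕 χ : 𝓢(E d, ℂ)) j * Nn ℓ j v := by
  rw [norm_Rp]
  exact norm_Rs_le χ hj hℓ hℓ1 v

/-- (K1c) on pairs. -/
theorem continuousOn_Rp {Y : Type*} [TopologicalSpace Y] {S : Set Y} (χ : 𝓢(E d, ℂ)) {j : ℕ}
    (hj : j ≤ k) {ρ : Y → ℝ} (hρ : ContinuousOn ρ S) (h0 : ∀ y ∈ S, 0 < ρ y)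
    (h1 : ∀ y ∈ S, ρ y ≤ 1) {v : Y → WA d k} (hv : ContinuousOn v S) :
    ContinuousOn (fun y => Rp χ j (ρ y) (v y)) S := by
  have h := continuousOn_Rs χ hj hρ h0 h1 hv
  have h2 : ContinuousOn (fun y => starL (d := d) (s := j) (κ := 1) zero_le_one
      (Rs χ j (ρ y) (v y))) S := (starL zero_le_one).continuous.comp_continuousOn h
  exact h.prodMk h2

/-! ### Values of cut-off functions on the torus -/

theorem supp_of_cA {χ : E d → ℂ} (hχ : ∀ x, 1 ≤ ‖x‖ → χ x = 0) : ∀ x, 3 ≤ ‖x‖ → χ x = 0 :=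
  fun x hx => hχ x (by linarith)

theorem integrable_rep {φ : E d → ℂ} (hφ : Integrable φ)
    (h : Integrable fun ξ => (1 + ‖ξ‖ ^ k) * ‖φ ξ‖) :
    Integrable fun ξ => (1 + ‖ξ‖) ^ k * ‖φ ξ‖ := by
  refine (h.const_mul (2 ^ k)).mono' ?_ (Eventually.of_forall fun ξ => ?_)
  · exact (Continuous.aestronglyMeasurable (by fun_prop)).mul hφ.1.norm
  · rw [Real.norm_of_nonneg (by positivity), ← mul_assoc]
    exact mul_le_mul_of_nonneg_right (H201.one_add_pow_le k (norm_nonneg ξ)) (norm_nonneg _)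

/-- Cut-off Wiener functions are localised. -/
theorem loc_cut {χ Q : E d → ℂ} {C : ℝ} (hχ : ContDiff ℝ ∞ χ) (hs : ∀ x, 3 ≤ ‖x‖ → χ x = 0)
    (hQ : H201.WienerRep k Q C) {ℓ : ℝ} (hℓ : 0 < ℓ) (hℓ1 : ℓ ≤ 1) :
    H201.Loc k fun x => χ x * Q (ℓ⁻¹ • x) := by
  obtain ⟨φ, h1, h2, h3, -⟩ := hQ
  have h4 : Q = 𝓕⁻ φ := funext h3
  rw [h4]
  exact H201.Loc.ext hχ hs hℓ hℓ1 h1 (integrable_rep h1 h2)

theorem ev_Up {Q : E d → ℂ} {C : ℝ} (hQ : H201.WienerRep k Q C) {ℓ : ℝ} (hℓ : 0 < ℓ)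
    (hℓ1 : ℓ ≤ 1) {x : E d} (hx : ‖x‖ ≤ 3) :
    WA.ev (Up k Q ℓ) (WithLp.ofLp x) = cA x * Q (ℓ⁻¹ • x) := by
  have h := loc_cut contDiff_cA (supp_of_cA fun x hx => cA_eq_zero hx) hQ hℓ hℓ1
  unfold Up
  rw [h.ev_per, H201.perF_eq hx]

/-! ### The linearised potentials -/

/-- The restriction operator intertwines the linearised potentials. -/
theorem Rb_gen {m : ℕ} {j : ℕ} (hj : j ≤ k) {ℓ : ℝ} (hℓ : 0 < ℓ) (hℓ1 : ℓ ≤ 1)
    {Q : E d → ℂ} {φ₁ φ₂ : X1 d j}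
    (h1 : ∀ y, BU.ev φ₁ y = -(Complex.I * (((m : ℂ) + 1) * W1 m (Q y))))
    (h2 : ∀ y, BU.ev φ₂ y = -(Complex.I * ((m : ℂ) * W2 m (Q y)))) {W : WA d k}
    (hW : ∀ y : E d, ‖ℓ • y‖ ≤ 1 / 2 → WA.ev W (WithLp.ofLp (ℓ • y)) = Q y) (v : WA d k) :
    Rp (c1S d) j ℓ (BW m W v) = BP zero_le_one φ₁ φ₂ (Rp (c1S d) j ℓ v) := by
  have key : Rs (c1S d) j ℓ (BW m W v) = mulX zero_le_one φ₁ (Rs (c1S d) j ℓ v) +
      mulX zero_le_one φ₂ (starX zero_le_one (Rs (c1S d) j ℓ v)) := by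
    apply BU.ev_injective zero_le_one
    intro y
    rw [BU.ev_add zero_le_one, ev_mulX, ev_mulX, ev_starX, ev_Rs _ hj hℓ hℓ1, ev_Rs _ hj hℓ hℓ1,
      h1, h2, ev_BW]
    simp only [c1S_apply]
    rcases le_total ‖ℓ • y‖ (1 / 2) with h | h
    · rw [hW y h, map_mul, conj_c1]
      ring
    · rw [c1_eq_zero h]
      simp
  rw [Rp_eq, Rp_eq, BP_apply, key]
  simp only [starX_add, starX_mulX, starX_starX]
  ext1
  · rfl
  · exact add_comm _ _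

/-- (Rb) for the cut-off profile. -/
theorem Rb {m : ℕ} {j : ℕ} (hj : j ≤ k) {ℓ : ℝ} (hℓ : 0 < ℓ) (hℓ1 : ℓ ≤ 1)
    {Q : E d → ℂ} {C : ℝ} (hQ : H201.WienerRep k Q C) {φ₁ φ₂ : X1 d j}
    (h1 : ∀ y, BU.ev φ₁ y = -(Complex.I * (((m : ℂ) + 1) * W1 m (Q y))))
    (h2 : ∀ y, BU.ev φ₂ y = -(Complex.I * ((m : ℂ) * W2 m (Q y)))) (v : WA d k) :
    Rp (c1S d) j ℓ (BW m (Up k Q ℓ) v) = BP zero_le_one φ₁ φ₂ (Rp (c1S d) j ℓ v) := by
  refine Rb_gen hj hℓ hℓ1 h1 h2 (fun y hy => ?_) v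
  rw [ev_Up hQ hℓ hℓ1 (hy.trans (by norm_num)), cA_eq_one hy, one_mul, smul_smul,
    inv_mul_cancel₀ hℓ.ne', one_smul]

end Vale.Agent.P139.L
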