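import Vale.Agent.P139.H579.NDefs
import Mathlib.Analysis.Distribution.SchwartzSpace.Fourier
import Mathlib.MeasureTheory.Measure.Haar.NormedSpace
import Mathlib.Analysis.Fourier.Inversion

/-!
# P139 / block L (helper308): wave packets

For a Schwartz function `χ`, a scale `ℓ > 0` and a lattice point `n`, the packet
`y ↦ χ(ℓ y) e^{i ℓ n·y}` has the Fourier density `gd χ ℓ n`, with
`∫ (1+‖ξ‖)^s |gd| ≤ C (1+ℓ‖n‖)^s`.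
-/

open Set Filter Topology MeasureTheory
open scoped ComplexConjugate ContDiff FourierTransform SchwartzMap

namespace Vale.Agent.P139.L

open Vale.Agent.P139.A Vale.Agent.P139.A.WA Vale.Agent.P139.BU Vale.Agent.P139.N

variable {d : ℕ}

/-- Lattice point as a vector. -/
noncomputable def vec (n : Lat d) : E d := WithLp.toLp 2 fun j => (n j : ℝ)

@[simp] theorem vec_apply (n : Lat d) (j : Fin d) : vec n j = (n j : ℝ) := rfl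

theorem inner_vec (n : Lat d) (y : E d) : inner ℝ (vec n) y = ∑ j, (n j : ℝ) * y j := by
  simp [PiLp.inner_apply, mul_comm]

theorem expi_eq (n : Lat d) (y : E d) :
    expi n (WithLp.ofLp y) = Complex.exp (Complex.I * ((inner ℝ (vec n) y : ℝ) : ℂ)) := by
  unfold expi
  rw [inner_vec]
  push_cast
  rfl

theorem expi_smul (n : Lat d) (ℓ : ℝ) (y : E d) :
    expi n (WithLp.ofLp (ℓ • y)) = Complex.exp (Complex.I * ((ℓ * inner ℝ (vec n) y : ℝ) : ℂ)) := by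
  rw [expi_eq, inner_smul_right]

theorem norm_vec_le (n : Lat d) : ‖vec n‖ ≤ (d : ℝ) * ‖n‖ := by
  have h1 : ‖vec n‖ ≤ ∑ j : Fin d, ‖vec n j‖ := by
    rw [EuclideanSpace.norm_eq]
    refine (Real.sqrt_le_left (Finset.sum_nonneg fun j _ => norm_nonneg _)).2 ?_
    exact Finset.sum_sq_le_sq_sum_of_nonneg fun j _ => norm_nonneg _
  refine h1.trans ?_
  calc ∑ j : Fin d, ‖vec n j‖ ≤ ∑ _j : Fin d, ‖n‖ := by
        refine Finset.sum_le_sum fun j _ => ?_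
        have := norm_le_pi_norm n j
        rw [vec_apply, Real.norm_eq_abs]
        rwa [Int.norm_eq_abs] at this
    _ = (d : ℝ) * ‖n‖ := by simp

/-- Density of the packet `y ↦ χ(ℓ y) e^{i ℓ n·y}`. -/
noncomputable def gd (χ : 𝓢(E d, ℂ)) (ℓ : ℝ) (n : Lat d) (ξ : E d) : ℂ :=
  ((ℓ ^ d : ℝ) : ℂ)⁻¹ * (𝓕 χ : 𝓢(E d, ℂ)) (ℓ⁻¹ • ξ - (2 * Real.pi)⁻¹ • vec n)

theorem continuous_gd (χ : 𝓢(E d, ℂ)) (ℓ : ℝ) (n : Lat d) : Continuous (gd χ ℓ n) := by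
  unfold gd
  have := (𝓕 χ : 𝓢(E d, ℂ)).continuous
  fun_prop

/-- Change of variables `ξ = ℓ (ζ + n/2π)`. -/
theorem integral_gd {F : Type*} [NormedAddCommGroup F] [NormedSpace ℝ F] {ℓ : ℝ} (hℓ : 0 < ℓ)
    (n : Lat d) (f : E d → F) :
    ∫ ξ : E d, (ℓ ^ d)⁻¹ • f (ℓ⁻¹ • ξ - (2 * Real.pi)⁻¹ • vec n) = ∫ ζ : E d, f ζ := by
  rw [integral_smul]
  have h1 := Measure.integral_comp_smul (volume : Measure (E d))
    (fun ξ => f (ξ - (2 * Real.pi)⁻¹ • vec n)) ℓ⁻¹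
  rw [h1, integral_sub_right_eq_self f ((2 * Real.pi)⁻¹ • vec n), smul_smul]
  have h2 : (ℓ ^ d)⁻¹ * |(ℓ⁻¹ ^ Module.finrank ℝ (E d))⁻¹| = 1 := by
    rw [finrank_euclideanSpace, Fintype.card_fin, inv_pow, inv_inv, abs_of_pos (by positivity)]
    exact inv_mul_cancel₀ (by positivity)
  rw [h2, one_smul]

theorem integrable_gd_aux {F : Type*} [NormedAddCommGroup F] [NormedSpace ℝ F] {ℓ : ℝ}
    (hℓ : 0 < ℓ) (n : Lat d) {f : E d → F} (hf : Integrable f) :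
    Integrable fun ξ : E d => (ℓ ^ d)⁻¹ • f (ℓ⁻¹ • ξ - (2 * Real.pi)⁻¹ • vec n) := by
  refine Integrable.smul _ ?_
  have h := hf.comp_sub_right ((2 * Real.pi)⁻¹ • vec n)
  exact h.comp_smul (inv_ne_zero hℓ.ne')

/-- `1 + ‖ℓ(ζ + n/2π)‖ ≤ (1+d)(1+ℓ‖n‖)(1+‖ζ‖)`. -/
theorem weight_le {ℓ : ℝ} (hℓ : 0 ≤ ℓ) (hℓ1 : ℓ ≤ 1) (n : Lat d) (ζ : E d) :
    1 + ‖ℓ • (ζ + (2 * Real.pi)⁻¹ • vec n)‖ ≤ (1 + d) * (1 + ℓ * ‖n‖) * (1 + ‖ζ‖) := by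
  have hpi : (2 * Real.pi)⁻¹ ≤ 1 := by
    rw [inv_le_one₀ (by positivity)]
    linarith [Real.pi_gt_three]
  have hpi0 : 0 ≤ (2 * Real.pi)⁻¹ := by positivity
  have h1 : ‖ℓ • (ζ + (2 * Real.pi)⁻¹ • vec n)‖ ≤ ‖ζ‖ + ℓ * (d * ‖n‖) := by
    rw [norm_smul, Real.norm_of_nonneg hℓ]
    have h2 : ‖ζ + (2 * Real.pi)⁻¹ • vec n‖ ≤ ‖ζ‖ + d * ‖n‖ := by
      refine (norm_add_le _ _).trans ?_
      rw [norm_smul, Real.norm_of_nonneg hpi0]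
      have := norm_vec_le n
      nlinarith [norm_nonneg (vec n)]
    nlinarith [norm_nonneg ζ, norm_nonneg (ζ + (2 * Real.pi)⁻¹ • vec n)]
  have hn := norm_nonneg n
  have hz := norm_nonneg ζ
  have hd : (0 : ℝ) ≤ d := Nat.cast_nonneg d
  have hln : 0 ≤ ℓ * ‖n‖ := mul_nonneg hℓ hn
  have e1 : (1 + (d : ℝ)) * (1 + ℓ * ‖n‖) * (1 + ‖ζ‖) =
      1 + ‖ζ‖ + d * (ℓ * ‖n‖) + (ℓ * ‖n‖ + d + ‖ζ‖ * (ℓ * ‖n‖) + ‖ζ‖ * d + ‖ζ‖ * d * (ℓ * ‖n‖)) := by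
    ring
  have h3 : 0 ≤ ℓ * ‖n‖ + d + ‖ζ‖ * (ℓ * ‖n‖) + ‖ζ‖ * d + ‖ζ‖ * d * (ℓ * ‖n‖) := by positivity
  rw [e1]
  have h4 : ℓ * (d * ‖n‖) = d * (ℓ * ‖n‖) := by ring
  linarith

/-- The constant of a Schwartz function: `(1+d)^s ∫ (1+‖ζ‖)^s |g|`. -/
noncomputable def cst (g : 𝓢(E d, ℂ)) (s : ℕ) : ℝ := (1 + d) ^ s * ∫ ζ : E d, (1 + ‖ζ‖) ^ s * ‖g ζ‖

theorem integrable_wt (g : 𝓢(E d, ℂ)) (s : ℕ) :
    Integrable fun ζ : E d => (1 + ‖ζ‖) ^ s * ‖g ζ‖ := by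
  have h : ∀ k : ℕ, Integrable fun ζ : E d => ‖ζ‖ ^ k * ‖g ζ‖ := fun k => g.integrable_pow_mul volume k
  have h2 : (fun ζ : E d => (1 + ‖ζ‖) ^ s * ‖g ζ‖) =
      fun ζ => ∑ k ∈ Finset.range (s + 1), (s.choose k : ℝ) * (‖ζ‖ ^ k * ‖g ζ‖) := by
    funext ζ
    rw [add_comm, add_pow, Finset.sum_mul]
    refine Finset.sum_congr rfl fun k _ => ?_
    rw [one_pow]
    ring
  rw [h2]
  exact integrable_finsetSum _ fun k _ => (h k).const_mul _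

theorem cst_nonneg (g : 𝓢(E d, ℂ)) (s : ℕ) : 0 ≤ cst g s := by
  unfold cst
  have : 0 ≤ ∫ ζ : E d, (1 + ‖ζ‖) ^ s * ‖g ζ‖ := integral_nonneg fun ζ => by positivity
  positivity

/-- General packet estimate. -/
theorem packet_le (g : 𝓢(E d, ℂ)) (s : ℕ) {ℓ : ℝ} (hℓ : 0 < ℓ) (hℓ1 : ℓ ≤ 1) (n : Lat d) :
    Integrable (fun ξ : E d => (1 + ‖ξ‖) ^ s * ‖((ℓ ^ d : ℝ) : ℂ)⁻¹ *
      g (ℓ⁻¹ • ξ - (2 * Real.pi)⁻¹ • vec n)‖) ∧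
    ∫ ξ : E d, (1 + ‖ξ‖) ^ s * ‖((ℓ ^ d : ℝ) : ℂ)⁻¹ * g (ℓ⁻¹ • ξ - (2 * Real.pi)⁻¹ • vec n)‖
      ≤ cst g s * (1 + ℓ * ‖n‖) ^ s := by
  have hld : (0 : ℝ) < ℓ ^ d := by positivity
  have hid : ∀ ξ : E d, ℓ • (ℓ⁻¹ • ξ - (2 * Real.pi)⁻¹ • vec n + (2 * Real.pi)⁻¹ • vec n) = ξ := by
    intro ξ
    rw [sub_add_cancel, smul_smul, mul_inv_cancel₀ hℓ.ne', one_smul]
  have hrw : (fun ξ : E d => (1 + ‖ξ‖) ^ s * ‖((ℓ ^ d : ℝ) : ℂ)⁻¹ *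
      g (ℓ⁻¹ • ξ - (2 * Real.pi)⁻¹ • vec n)‖) = fun ξ => (ℓ ^ d)⁻¹ •
      (fun ζ : E d => (1 + ‖ℓ • (ζ + (2 * Real.pi)⁻¹ • vec n)‖) ^ s * ‖g ζ‖)
        (ℓ⁻¹ • ξ - (2 * Real.pi)⁻¹ • vec n) := by
    funext ξ
    simp only [smul_eq_mul]
    rw [hid, norm_mul, norm_inv, Complex.norm_real, Real.norm_of_nonneg hld.le]
    ring
  have hint0 : Integrable fun ζ : E d => (1 + ‖ℓ • (ζ + (2 * Real.pi)⁻¹ • vec n)‖) ^ s * ‖g ζ‖ := by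
    refine ((integrable_wt g s).const_mul (((1 + d) * (1 + ℓ * ‖n‖)) ^ s)).mono'
      (by have := g.continuous; fun_prop) (Eventually.of_forall fun ζ => ?_)
    rw [norm_mul, norm_norm, Real.norm_of_nonneg (by positivity), ← mul_assoc, ← mul_pow]
    gcongr
    exact weight_le hℓ.le hℓ1 n ζ
  constructor
  · rw [hrw]
    exact integrable_gd_aux hℓ n hint0
  · rw [hrw, integral_gd hℓ n
      (fun ζ : E d => (1 + ‖ℓ • (ζ + (2 * Real.pi)⁻¹ • vec n)‖) ^ s * ‖g ζ‖)]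
    calc ∫ ζ : E d, (1 + ‖ℓ • (ζ + (2 * Real.pi)⁻¹ • vec n)‖) ^ s * ‖g ζ‖
        ≤ ∫ ζ : E d, ((1 + d) * (1 + ℓ * ‖n‖)) ^ s * ((1 + ‖ζ‖) ^ s * ‖g ζ‖) := by
          refine integral_mono hint0 ((integrable_wt g s).const_mul _) fun ζ => ?_
          simp only
          rw [← mul_assoc, ← mul_pow]
          gcongr
          exact weight_le hℓ.le hℓ1 n ζ
      _ = cst g s * (1 + ℓ * ‖n‖) ^ s := by
          rw [integral_const_mul]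
          unfold cst
          rw [mul_pow]
          ring

theorem integrable_gd (χ : 𝓢(E d, ℂ)) {ℓ : ℝ} (hℓ : 0 < ℓ) (n : Lat d) :
    Integrable (gd χ ℓ n) := by
  have h := integrable_gd_aux hℓ n (𝓕 χ : 𝓢(E d, ℂ)).integrable
  refine h.congr (Eventually.of_forall fun ξ => ?_)
  simp only [gd]
  rw [Complex.real_smul]
  push_cast
  rfl

/-- The packet: `𝓕⁻ (gd χ ℓ n) y = χ(ℓ y) e^{i n·(ℓ y)}`. -/
theorem fourierInv_gd (χ : 𝓢(E d, ℂ)) {ℓ : ℝ} (hℓ : 0 < ℓ) (n : Lat d) (y : E d) :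
    𝓕⁻ (gd χ ℓ n) y = χ (ℓ • y) * expi n (WithLp.ofLp (ℓ • y)) := by
  have hid : ∀ ξ : E d, ℓ • (ℓ⁻¹ • ξ - (2 * Real.pi)⁻¹ • vec n + (2 * Real.pi)⁻¹ • vec n) = ξ := by
    intro ξ
    rw [sub_add_cancel, smul_smul, mul_inv_cancel₀ hℓ.ne', one_smul]
  have h1 : 𝓕⁻ (gd χ ℓ n) y = ∫ ξ : E d, (ℓ ^ d)⁻¹ •
      (fun ζ : E d => Complex.exp (((2 * Real.pi * inner ℝ (ℓ • (ζ + (2 * Real.pi)⁻¹ • vec n)) y : ℝ) : ℂ)
        * Complex.I) • (𝓕 χ : 𝓢(E d, ℂ)) ζ) (ℓ⁻¹ • ξ - (2 * Real.pi)⁻¹ • vec n) := by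
    rw [Real.fourierInv_eq']
    refine integral_congr_ae (Eventually.of_forall fun ξ => ?_)
    simp only [gd]
    rw [hid, smul_eq_mul, smul_eq_mul, Complex.real_smul]
    push_cast
    ring
  rw [h1, integral_gd hℓ n (fun ζ : E d =>
    Complex.exp (((2 * Real.pi * inner ℝ (ℓ • (ζ + (2 * Real.pi)⁻¹ • vec n)) y : ℝ) : ℂ)
        * Complex.I) • (𝓕 χ : 𝓢(E d, ℂ)) ζ)]
  have h2 : (χ : E d → ℂ) (ℓ • y) = 𝓕⁻ (𝓕 (χ : E d → ℂ)) (ℓ • y) := by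
    rw [χ.continuous.fourierInv_fourier_eq χ.integrable (𝓕 χ : 𝓢(E d, ℂ)).integrable]
  rw [h2, Real.fourierInv_eq', ← integral_mul_const]
  refine integral_congr_ae (Eventually.of_forall fun ζ => ?_)
  simp only [smul_eq_mul]
  have h3 : (𝓕 χ : 𝓢(E d, ℂ)) ζ = 𝓕 (χ : E d → ℂ) ζ := by rw [SchwartzMap.fourier_coe]
  rw [expi_smul, h3, mul_right_comm (Complex.exp _) _ (Complex.exp _), ← Complex.exp_add]
  congr 2
  rw [real_inner_smul_left, inner_add_left, real_inner_smul_left, real_inner_smul_right]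
  push_cast
  have hpi : (Real.pi : ℂ) ≠ 0 := by exact_mod_cast Real.pi_ne_zero
  field_simp

end Vale.Agent.P139.L
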