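import Vale.Agent.P139.H579.NDefs

/-!
# P139 / block L (helper308): the free flow on the torus in the rescaled frame and (K4)

* `freeMul m w ℓ r n = exp((-a+iw) r - i ℓ² (1-e^{-r}) |n|²)`, `Uf m w ℓ r : WA d k →L[ℂ] WA d k`;
* (K4): `M * Uf v - Uf (M * v)` is `O(ℓ)` with a loss of one derivative.
-/

open Set Filter Topology MeasureTheory
open scoped ComplexConjugate ContDiff

namespace Vale.Agent.P139.L

open Vale.Agent.P139.A Vale.Agent.P139.A.WA Vale.Agent.P139.BU Vale.Agent.P139.N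

variable {d k : ℕ}

/-- Young's inequality on the lattice. -/
theorem young {f g h : Lat d → ℝ} (hf : Summable f) (hg : Summable g) (f0 : ∀ n, 0 ≤ f n)
    (g0 : ∀ n, 0 ≤ g n) (h0 : ∀ n, 0 ≤ h n) (hh : ∀ n, h n ≤ ∑' p, f p * g (n - p)) :
    Summable h ∧ ∑' n, h n ≤ (∑' n, f n) * ∑' n, g n := by
  have h1 : Summable fun q : Lat d × Lat d => f q.1 * g q.2 := hf.mul_of_nonneg hg f0 g0
  have h2 : Summable fun q : Lat d × Lat d => f q.2 * g (q.1 - q.2) := (shear d).summable_iff.2 h1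
  have h3 := h2.prod
  refine ⟨Summable.of_nonneg_of_le h0 hh h3, ?_⟩
  have h4 : Summable h := Summable.of_nonneg_of_le h0 hh h3
  refine (h4.tsum_le_tsum hh h3).trans (le_of_eq ?_)
  rw [← h2.tsum_prod, hf.tsum_mul_tsum hg h1]
  exact (shear d).tsum_eq (fun q : Lat d × Lat d => f q.1 * g q.2)

/-- Summability of one row. -/
theorem young_row {f g : Lat d → ℝ} (hf : Summable f) (hg : Summable g) (f0 : ∀ n, 0 ≤ f n)
    (g0 : ∀ n, 0 ≤ g n) (n : Lat d) : Summable fun p => f p * g (n - p) := by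
  have h1 : Summable fun q : Lat d × Lat d => f q.1 * g q.2 := hf.mul_of_nonneg hg f0 g0
  have h2 : Summable fun q : Lat d × Lat d => f q.2 * g (q.1 - q.2) := (shear d).summable_iff.2 h1
  exact h2.prod_factor n

/-- Free flow in the rescaled frame over the time `r` from the scale `ℓ`, on the coefficient `n`. -/
noncomputable def freeMul (m : ℕ) (w ℓ r : ℝ) {d : ℕ} (n : Lat d) : ℂ :=
  Complex.exp (((-(aa m) : ℝ) + Complex.I * w) * r
    - Complex.I * ((ℓ ^ 2 * (1 - Real.exp (-r)) * sqNorm n : ℝ) : ℂ))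

theorem norm_freeMul (m : ℕ) (w ℓ r : ℝ) (n : Lat d) :
    ‖freeMul m w ℓ r n‖ = Real.exp (-(aa m) * r) := by
  unfold freeMul
  generalize ℓ ^ 2 * (1 - Real.exp (-r)) * sqNorm n = x
  rw [Complex.norm_exp]
  congr 1
  simp

theorem aa_nonneg (m : ℕ) : 0 ≤ aa m := by unfold aa; positivity

theorem norm_freeMul_le (m : ℕ) (w ℓ : ℝ) {r : ℝ} (hr : 0 ≤ r) (n : Lat d) :
    ‖freeMul m w ℓ r n‖ ≤ 1 := by
  rw [norm_freeMul]
  have := mul_nonneg (aa_nonneg m) hr
  rw [Real.exp_le_one_iff]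
  linarith

/-- `|e^{-ix} - e^{-iy}| ≤ |x-y|`. -/
theorem norm_exp_sub_le (x y : ℝ) :
    ‖Complex.exp (-(Complex.I * x)) - Complex.exp (-(Complex.I * y))‖ ≤ |x - y| := by
  have h1 : Complex.exp (-(Complex.I * x)) - Complex.exp (-(Complex.I * y)) =
      Complex.exp (-(Complex.I * y)) * (Complex.exp (Complex.I * ((y - x : ℝ) : ℂ)) - 1) := by
    rw [mul_sub, ← Complex.exp_add, mul_one]
    congr 2
    push_cast
    ring
  rw [h1, norm_mul]
  have h2 : ‖Complex.exp (-(Complex.I * y))‖ = 1 := by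
    rw [Complex.norm_exp]; simp
  rw [h2, one_mul, mul_comm, abs_sub_comm x y]
  have := Real.norm_exp_I_mul_ofReal_sub_one_le (x := y - x)
  rw [mul_comm Complex.I _] at this
  simpa using this

theorem freeMul_sub_le (m : ℕ) (w ℓ : ℝ) {r : ℝ} (hr : 0 ≤ r) (n p : Lat d) :
    ‖freeMul m w ℓ r n - freeMul m w ℓ r p‖ ≤ ℓ ^ 2 * |sqNorm n - sqNorm p| := by
  have h1 : freeMul m w ℓ r n - freeMul m w ℓ r p =
      Complex.exp (((-(aa m) : ℝ) + Complex.I * w) * r) *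
      (Complex.exp (-(Complex.I * ((ℓ ^ 2 * (1 - Real.exp (-r)) * sqNorm n : ℝ) : ℂ)))
        - Complex.exp (-(Complex.I * ((ℓ ^ 2 * (1 - Real.exp (-r)) * sqNorm p : ℝ) : ℂ)))) := by
    unfold freeMul
    generalize ℓ ^ 2 * (1 - Real.exp (-r)) * sqNorm n = x
    generalize ℓ ^ 2 * (1 - Real.exp (-r)) * sqNorm p = y
    rw [mul_sub, ← Complex.exp_add, ← Complex.exp_add, ← sub_eq_add_neg, ← sub_eq_add_neg]
  rw [h1, norm_mul]
  have h2 : ‖Complex.exp (((-(aa m) : ℝ) + Complex.I * w) * r)‖ ≤ 1 := by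
    rw [Complex.norm_exp, Real.exp_le_one_iff]
    have := mul_nonneg (aa_nonneg m) hr
    simp
    linarith
  have h3 := norm_exp_sub_le (ℓ ^ 2 * (1 - Real.exp (-r)) * sqNorm n)
    (ℓ ^ 2 * (1 - Real.exp (-r)) * sqNorm p)
  have h4 : |ℓ ^ 2 * (1 - Real.exp (-r)) * sqNorm n - ℓ ^ 2 * (1 - Real.exp (-r)) * sqNorm p|
      ≤ ℓ ^ 2 * |sqNorm n - sqNorm p| := by
    rw [← mul_sub, abs_mul]
    have h5 : 0 ≤ 1 - Real.exp (-r) := by
      have := Real.exp_le_one_iff.2 (neg_nonpos.2 hr)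
      linarith
    have h6 : 1 - Real.exp (-r) ≤ 1 := by linarith [Real.exp_pos (-r)]
    rw [abs_of_nonneg (mul_nonneg (sq_nonneg ℓ) h5)]
    have h7 : ℓ ^ 2 * (1 - Real.exp (-r)) ≤ ℓ ^ 2 * 1 := by gcongr
    rw [mul_one] at h7
    exact mul_le_mul_of_nonneg_right h7 (abs_nonneg _)
  calc _ ≤ 1 * |ℓ ^ 2 * (1 - Real.exp (-r)) * sqNorm n
        - ℓ ^ 2 * (1 - Real.exp (-r)) * sqNorm p| :=
        mul_le_mul h2 h3 (norm_nonneg _) zero_le_one
    _ ≤ _ := by rw [one_mul]; exact h4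

/-- Diagonal operators on the Wiener algebra. -/
noncomputable def diag (c : Lat d → ℂ) (B : ℝ) (h : ∀ n, ‖c n‖ ≤ B) : WA d k →L[ℂ] WA d k :=
  LinearMap.mkContinuous
    { toFun := fun a => mk (fun n => c n * coef a n) (by
        refine Summable.of_nonneg_of_le (fun n => mul_nonneg (W_pos n).le (norm_nonneg _))
          (fun n => ?_) (a.summable.mul_left B)
        rw [norm_mul]
        have := mul_le_mul_of_nonneg_right (h n) (mul_nonneg (W_pos (k := k) n).le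
          (norm_nonneg (coef a n)))
        linarith)
      map_add' := fun a b => by
        ext n
        simp only [coef_mk, coef_add]
        ring
      map_smul' := fun z a => by
        ext n
        simp only [coef_mk, coef_smul, RingHom.id_apply]
        ring } B
    (fun a => by
      rw [norm_eq, norm_eq a, ← tsum_mul_left]
      simp only [LinearMap.coe_mk, AddHom.coe_mk, coef_mk]
      have hs : Summable fun n => B * (W k n * ‖coef a n‖) := a.summable.mul_left B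
      have hle : ∀ n, W k n * ‖c n * coef a n‖ ≤ B * (W k n * ‖coef a n‖) := fun n => by
        rw [norm_mul]
        have := mul_le_mul_of_nonneg_right (h n) (mul_nonneg (W_pos (k := k) n).le
          (norm_nonneg (coef a n)))
        linarith
      exact (Summable.of_nonneg_of_le (fun n => mul_nonneg (W_pos n).le (norm_nonneg _))
        hle hs).tsum_le_tsum hle hs)

@[simp] theorem coef_diag (c : Lat d → ℂ) (B : ℝ) (h : ∀ n, ‖c n‖ ≤ B) (a : WA d k) (n : Lat d) :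
    coef (diag c B h a) n = c n * coef a n := by
  unfold diag
  simp only [LinearMap.mkContinuous_apply, LinearMap.coe_mk, AddHom.coe_mk, coef_mk]

/-- The free flow in the rescaled frame. -/
noncomputable def Uf (m : ℕ) (w ℓ r : ℝ) : WA d k →L[ℂ] WA d k :=
  diag (freeMul m w ℓ r) (Real.exp (-(aa m) * r)) fun n => (norm_freeMul m w ℓ r n).le

@[simp] theorem coef_Uf (m : ℕ) (w ℓ r : ℝ) (a : WA d k) (n : Lat d) :
    coef (Uf m w ℓ r a) n = freeMul m w ℓ r n * coef a n := coef_diag _ _ _ a n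

theorem summable_Nn {ℓ : ℝ} (h0 : 0 ≤ ℓ) (h1 : ℓ ≤ 1) {j : ℕ} (hj : j ≤ k) (v : WA d k) :
    Summable fun n => (1 + ℓ * ‖n‖) ^ j * ‖coef v n‖ := by
  refine Summable.of_nonneg_of_le (fun n => by positivity) (fun n => ?_) v.summable
  have hn := norm_nonneg n
  have h2 : (1 + ℓ * ‖n‖) ^ j ≤ W k n := by
    unfold W
    calc (1 + ℓ * ‖n‖) ^ j ≤ (1 + ‖n‖) ^ j := by gcongr; nlinarith
      _ ≤ (1 + ‖n‖) ^ k := pow_le_pow_right₀ (by linarith) hj
  gcongr

theorem Nn_nonneg {ℓ : ℝ} (h0 : 0 ≤ ℓ) (j : ℕ) (v : WA d k) : 0 ≤ Nn ℓ j v :=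
  tsum_nonneg fun n => by positivity

/-- `|⟨n,p⟩| ≤ d ‖n‖ ‖p‖`, in the form needed for the difference of the squares. -/
theorem sqNorm_sub_le (q p : Lat d) :
    |sqNorm (q + p) - sqNorm q| ≤ 2 * d * (1 + ‖q‖) * (1 + ‖p‖) ^ 2 := by
  have hq := norm_nonneg q
  have hp := norm_nonneg p
  have hc : ∀ (n : Lat d) (j : Fin d), |(n j : ℝ)| ≤ ‖n‖ := fun n j => by
    have := norm_le_pi_norm n j
    rwa [Int.norm_eq_abs] at this
  have h1 : sqNorm (q + p) - sqNorm q = ∑ j, (2 * (q j : ℝ) * p j + (p j : ℝ) ^ 2) := by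
    unfold sqNorm
    rw [← Finset.sum_sub_distrib]
    refine Finset.sum_congr rfl fun j _ => ?_
    simp only [Pi.add_apply]
    push_cast
    ring
  rw [h1]
  refine (Finset.abs_sum_le_sum_abs _ _).trans ?_
  calc ∑ j, |2 * (q j : ℝ) * p j + (p j : ℝ) ^ 2|
      ≤ ∑ _j : Fin d, 2 * ((1 + ‖q‖) * (1 + ‖p‖) ^ 2) := by
        refine Finset.sum_le_sum fun j _ => ?_
        have a1 := hc q j
        have a2 := hc p j
        have a3 : |2 * (q j : ℝ) * p j + (p j : ℝ) ^ 2| ≤ 2 * (|(q j : ℝ)| * |(p j : ℝ)|)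
            + |(p j : ℝ)| * |(p j : ℝ)| := by
          refine (abs_add_le _ _).trans ?_
          rw [abs_mul, abs_mul, abs_two, abs_pow, sq]
          linarith
        have a4 : |(q j : ℝ)| * |(p j : ℝ)| ≤ ‖q‖ * ‖p‖ :=
          mul_le_mul a1 a2 (abs_nonneg _) hq
        have a5 : |(p j : ℝ)| * |(p j : ℝ)| ≤ ‖p‖ * ‖p‖ :=
          mul_le_mul a2 a2 (abs_nonneg _) hp
        nlinarith [mul_nonneg hq hp, mul_nonneg hq (mul_nonneg hp hp)]
    _ = 2 * d * (1 + ‖q‖) * (1 + ‖p‖) ^ 2 := by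
        rw [Finset.sum_const, Finset.card_univ, Fintype.card_fin, nsmul_eq_mul]
        ring

/-- (K4), commutator of a multiplication operator with the free flow. -/
theorem K4 (m : ℕ) (w : ℝ) {ℓ r : ℝ} (hℓ : 0 < ℓ) (hℓ1 : ℓ ≤ 1) (hr : 0 ≤ r) {j : ℕ}
    (hj : j + 1 ≤ k) (M v : WA d k) (hM : Summable fun n => (1 + ‖n‖) ^ (j + 2) * ‖coef M n‖) :
    Nn (ℓ * Real.exp (-r / 2)) j (M * Uf m w ℓ r v - Uf m w ℓ r (M * v)) ≤
      (2 * d * ∑' n, (1 + ‖n‖) ^ (j + 2) * ‖coef M n‖) * ℓ * Nn ℓ (j + 1) v := by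
  set ℓ' := ℓ * Real.exp (-r / 2) with hℓ'
  have he : Real.exp (-r / 2) ≤ 1 := Real.exp_le_one_iff.2 (by linarith)
  have hℓ'0 : 0 < ℓ' := by positivity
  have hℓ'ℓ : ℓ' ≤ ℓ := by
    rw [hℓ']
    nlinarith
  set f : Lat d → ℝ := fun p => (1 + ‖p‖) ^ (j + 2) * ‖coef M p‖ with hf
  set g : Lat d → ℝ := fun q => 2 * d * ℓ * ((1 + ℓ * ‖q‖) ^ (j + 1) * ‖coef v q‖) with hg
  have hgs : Summable g := (summable_Nn hℓ.le hℓ1 hj v).mul_left _
  have hkey : ∀ n, (1 + ℓ' * ‖n‖) ^ j * ‖coef (M * Uf m w ℓ r v - Uf m w ℓ r (M * v)) n‖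
      ≤ ∑' p, f p * g (n - p) := by
    intro n
    have e1 : coef (M * Uf m w ℓ r v - Uf m w ℓ r (M * v)) n =
        ∑' p, coef M p * ((freeMul m w ℓ r (n - p) - freeMul m w ℓ r n) * coef v (n - p)) := by
      rw [coef_sub, coef_mul, coef_Uf, coef_mul, ← tsum_mul_left]
      have s1 : Summable fun p => coef M p * coef (Uf m w ℓ r v) (n - p) :=
        (summable_conv_norm M (Uf m w ℓ r v) n).of_norm
      have s2 : Summable fun p => freeMul m w ℓ r n * (coef M p * coef v (n - p)) :=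
        ((summable_conv_norm M v n).of_norm).mul_left _
      rw [← s1.tsum_sub s2]
      refine tsum_congr fun p => ?_
      rw [coef_Uf]
      ring
    rw [e1]
    have hrow := young_row hM hgs (fun p => by positivity) (fun q => by positivity) n
    have hterm : ∀ p, (1 + ℓ' * ‖n‖) ^ j * ‖coef M p * ((freeMul m w ℓ r (n - p)
        - freeMul m w ℓ r n) * coef v (n - p))‖ ≤ f p * g (n - p) := by
      intro p
      rw [norm_mul, norm_mul]
      have b1 : ‖freeMul m w ℓ r (n - p) - freeMul m w ℓ r n‖ ≤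
          2 * d * ℓ * (1 + ℓ * ‖n - p‖) * (1 + ‖p‖) ^ 2 := by
        refine (freeMul_sub_le m w ℓ hr _ _).trans ?_
        have b2 := sqNorm_sub_le (n - p) p
        rw [sub_add_cancel, abs_sub_comm] at b2
        have b3 : ℓ ^ 2 * (1 + ‖n - p‖) ≤ ℓ * (1 + ℓ * ‖n - p‖) := by
          nlinarith [norm_nonneg (n - p)]
        calc ℓ ^ 2 * |sqNorm (n - p) - sqNorm n|
            ≤ ℓ ^ 2 * (2 * d * (1 + ‖n - p‖) * (1 + ‖p‖) ^ 2) := by gcongr
          _ = 2 * d * (ℓ ^ 2 * (1 + ‖n - p‖)) * (1 + ‖p‖) ^ 2 := by ring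
          _ ≤ 2 * d * (ℓ * (1 + ℓ * ‖n - p‖)) * (1 + ‖p‖) ^ 2 := by gcongr
          _ = _ := by ring
      have b4 : (1 + ℓ' * ‖n‖) ^ j ≤ (1 + ℓ * ‖n - p‖) ^ j * (1 + ‖p‖) ^ j := by
        rw [← mul_pow]
        refine pow_le_pow_left₀ (by positivity) ?_ j
        have b5 : ‖n‖ ≤ ‖n - p‖ + ‖p‖ := by
          have := norm_add_le (n - p) p
          rwa [sub_add_cancel] at this
        have b6 : ℓ' * ‖n‖ ≤ ℓ * (‖n - p‖ + ‖p‖) := by gcongr
        nlinarith [norm_nonneg (n - p), norm_nonneg p,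
          mul_nonneg (mul_nonneg hℓ.le (norm_nonneg (n - p))) (norm_nonneg p),
          mul_le_mul_of_nonneg_right hℓ1 (norm_nonneg p)]
      simp only [hf, hg]
      calc (1 + ℓ' * ‖n‖) ^ j * (‖coef M p‖ * (‖freeMul m w ℓ r (n - p)
            - freeMul m w ℓ r n‖ * ‖coef v (n - p)‖))
          ≤ ((1 + ℓ * ‖n - p‖) ^ j * (1 + ‖p‖) ^ j) * (‖coef M p‖ *
            ((2 * d * ℓ * (1 + ℓ * ‖n - p‖) * (1 + ‖p‖) ^ 2) * ‖coef v (n - p)‖)) := by gcongr
        _ = (1 + ‖p‖) ^ (j + 2) * ‖coef M p‖ * (2 * d * ℓ * ((1 + ℓ * ‖n - p‖) ^ (j + 1)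
            * ‖coef v (n - p)‖)) := by ring
    have hs0 : Summable fun p => (1 + ℓ' * ‖n‖) ^ j * ‖coef M p * ((freeMul m w ℓ r (n - p)
        - freeMul m w ℓ r n) * coef v (n - p))‖ :=
      Summable.of_nonneg_of_le (fun p => by positivity) hterm hrow
    have hpos : 0 < (1 + ℓ' * ‖n‖) ^ j := by positivity
    have hs1 : Summable fun p => ‖coef M p * ((freeMul m w ℓ r (n - p)
        - freeMul m w ℓ r n) * coef v (n - p))‖ :=
      (summable_mul_left_iff hpos.ne').1 hs0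
    calc _ ≤ (1 + ℓ' * ‖n‖) ^ j * ∑' p, ‖coef M p * ((freeMul m w ℓ r (n - p)
        - freeMul m w ℓ r n) * coef v (n - p))‖ := by
          gcongr
          exact norm_tsum_le_tsum_norm hs1
      _ = ∑' p, (1 + ℓ' * ‖n‖) ^ j * ‖coef M p * ((freeMul m w ℓ r (n - p)
        - freeMul m w ℓ r n) * coef v (n - p))‖ := tsum_mul_left.symm
      _ ≤ _ := hs0.tsum_le_tsum hterm hrow
  have h := (young hM hgs (fun p => by positivity) (fun q => by positivity)
    (fun n => by positivity) hkey).2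
  refine h.trans (le_of_eq ?_)
  simp only [hf, hg]
  rw [tsum_mul_left]
  unfold Nn
  ring

end Vale.Agent.P139.L
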