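import Vale.Agent.P139.H308.Packet
import Vale.Agent.P139.H308.TorusK4

/-!
# P139 / block L (helper308): the free flow on packets, density level of (K3)
-/

open Set Filter Topology MeasureTheory
open scoped ComplexConjugate ContDiff FourierTransform SchwartzMap

namespace Vale.Agent.P139.L

open Vale.Agent.P139.A Vale.Agent.P139.A.WA Vale.Agent.P139.BU Vale.Agent.P139.N

variable {d : ℕ}

/-- General packet estimate with a polynomial factor. -/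
theorem packet_le2 (g : 𝓢(E d, ℂ)) (s q : ℕ) {ℓ : ℝ} (hℓ : 0 < ℓ) (hℓ1 : ℓ ≤ 1) (n : Lat d)
    {B : ℝ} (hB : 0 ≤ B) {D : E d → ℂ} (hD : AEStronglyMeasurable D)
    (hle : ∀ ξ, ‖D ξ‖ ≤ B * ((ℓ ^ d)⁻¹ * ((1 + ‖ℓ⁻¹ • ξ - (2 * Real.pi)⁻¹ • vec n‖) ^ q *
      ‖g (ℓ⁻¹ • ξ - (2 * Real.pi)⁻¹ • vec n)‖))) :
    Integrable (fun ξ : E d => (1 + ‖ξ‖) ^ s * ‖D ξ‖) ∧
    ∫ ξ : E d, (1 + ‖ξ‖) ^ s * ‖D ξ‖ ≤ B * (((1 + d) * (1 + ℓ * ‖n‖)) ^ s *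
      ∫ ζ : E d, (1 + ‖ζ‖) ^ (s + q) * ‖g ζ‖) := by
  have hid : ∀ ξ : E d, ℓ • (ℓ⁻¹ • ξ - (2 * Real.pi)⁻¹ • vec n + (2 * Real.pi)⁻¹ • vec n) = ξ := by
    intro ξ
    rw [sub_add_cancel, smul_smul, mul_inv_cancel₀ hℓ.ne', one_smul]
  set F : E d → ℝ := fun ζ => B * (((1 + d) * (1 + ℓ * ‖n‖)) ^ s *
    ((1 + ‖ζ‖) ^ (s + q) * ‖g ζ‖)) with hF
  have hFi : Integrable F := ((integrable_wt g (s + q)).const_mul _).const_mul _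
  have hb : ∀ ξ : E d, (1 + ‖ξ‖) ^ s * ‖D ξ‖ ≤
      (ℓ ^ d)⁻¹ • F (ℓ⁻¹ • ξ - (2 * Real.pi)⁻¹ • vec n) := by
    intro ξ
    set ζ := ℓ⁻¹ • ξ - (2 * Real.pi)⁻¹ • vec n with hζ
    have h1 : 1 + ‖ξ‖ ≤ (1 + d) * (1 + ℓ * ‖n‖) * (1 + ‖ζ‖) := by
      have := weight_le hℓ.le hℓ1 n ζ
      rwa [hζ, hid] at this
    have h2 := hle ξ
    rw [smul_eq_mul]
    simp only [hF]
    calc (1 + ‖ξ‖) ^ s * ‖D ξ‖ ≤ ((1 + d) * (1 + ℓ * ‖n‖) * (1 + ‖ζ‖)) ^ s *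
          (B * ((ℓ ^ d)⁻¹ * ((1 + ‖ζ‖) ^ q * ‖g ζ‖))) := by gcongr
      _ = _ := by
        rw [mul_pow _ (1 + ‖ζ‖), pow_add]
        ring
  have hFi2 := integrable_gd_aux hℓ n hFi
  have hi : Integrable (fun ξ : E d => (1 + ‖ξ‖) ^ s * ‖D ξ‖) := by
    refine hFi2.mono' ?_ (Eventually.of_forall fun ξ => ?_)
    · exact (by fun_prop : Continuous fun ξ : E d => (1 + ‖ξ‖) ^ s).aestronglyMeasurable.mul hD.norm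
    · rw [Real.norm_of_nonneg (by positivity)]
      exact hb ξ
  refine ⟨hi, ?_⟩
  calc ∫ ξ : E d, (1 + ‖ξ‖) ^ s * ‖D ξ‖
      ≤ ∫ ξ : E d, (ℓ ^ d)⁻¹ • F (ℓ⁻¹ • ξ - (2 * Real.pi)⁻¹ • vec n) :=
        integral_mono hi hFi2 hb
    _ = ∫ ζ : E d, F ζ := integral_gd hℓ n F
    _ = _ := by rw [hF, integral_const_mul, integral_const_mul]

/-- Free flow on a density. -/
noncomputable def S0d (m : ℕ) (w r : ℝ) (φ : E d → ℂ) (ξ : E d) : ℂ :=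
  Complex.exp (((-(aa m) : ℝ) + Complex.I * w) * r) * (Real.exp (d * r / 2) : ℝ) *
    Complex.exp (-(Complex.I * ((4 * Real.pi ^ 2 * ‖ξ‖ ^ 2 * (Real.exp r - 1) : ℝ) : ℂ))) *
    φ (Real.exp (r / 2) • ξ)

theorem S0d_gd (m : ℕ) (w r : ℝ) (χ : 𝓢(E d, ℂ)) {ℓ : ℝ} (hℓ : 0 < ℓ) (n : Lat d) (ξ : E d) :
    S0d m w r (gd χ ℓ n) ξ = Complex.exp (((-(aa m) : ℝ) + Complex.I * w) * r) *
      Complex.exp (-(Complex.I * ((4 * Real.pi ^ 2 * ‖ξ‖ ^ 2 * (Real.exp r - 1) : ℝ) : ℂ))) *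
      gd χ (ℓ * Real.exp (-r / 2)) n ξ := by
  unfold S0d gd
  have h1 : (ℓ * Real.exp (-r / 2))⁻¹ = ℓ⁻¹ * Real.exp (r / 2) := by
    rw [mul_inv, ← Real.exp_neg]
    congr 2
    ring
  have h2 : ℓ⁻¹ • Real.exp (r / 2) • ξ = (ℓ * Real.exp (-r / 2))⁻¹ • ξ := by
    rw [h1, smul_smul]
  have h3 : ((ℓ ^ d : ℝ) : ℂ)⁻¹ * (Real.exp (d * r / 2) : ℝ) =
      (((ℓ * Real.exp (-r / 2)) ^ d : ℝ) : ℂ)⁻¹ := by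
    rw [← Complex.ofReal_inv, ← Complex.ofReal_inv, ← Complex.ofReal_mul]
    congr 1
    rw [← inv_pow (ℓ * _), h1, mul_pow, ← Real.exp_nat_mul, inv_pow]
    congr 2
    ring
  rw [h2, ← h3]
  ring

/-- The difference of the two phases. -/
theorem phase_sub_le {ℓ r : ℝ} (hℓ : 0 < ℓ) (hℓ1 : ℓ ≤ 1) (hr : 0 ≤ r) (n : Lat d) (ξ : E d) :
    |ℓ ^ 2 * (1 - Real.exp (-r)) * sqNorm n - 4 * Real.pi ^ 2 * ‖ξ‖ ^ 2 * (Real.exp r - 1)| ≤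
      4 * Real.pi ^ 2 * (1 + d) * ℓ * (1 + ℓ * ‖n‖) *
        (1 + ‖(ℓ * Real.exp (-r / 2))⁻¹ • ξ - (2 * Real.pi)⁻¹ • vec n‖) ^ 2 := by
  set ℓ' := ℓ * Real.exp (-r / 2) with hℓ'
  set ζ := ℓ'⁻¹ • ξ - (2 * Real.pi)⁻¹ • vec n with hζ
  have hℓ'0 : 0 < ℓ' := by positivity
  have hξ : ξ = ℓ' • (ζ + (2 * Real.pi)⁻¹ • vec n) := by
    rw [hζ, sub_add_cancel, smul_smul, mul_inv_cancel₀ hℓ'0.ne', one_smul]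
  have hsq : sqNorm n = ‖vec n‖ ^ 2 := by
    rw [EuclideanSpace.norm_sq_eq]
    unfold sqNorm
    refine Finset.sum_congr rfl fun j _ => ?_
    rw [vec_apply, Real.norm_eq_abs, sq_abs]
  have hℓ'2 : ℓ' ^ 2 * (Real.exp r - 1) = ℓ ^ 2 * (1 - Real.exp (-r)) := by
    rw [hℓ', mul_pow, ← Real.exp_nat_mul]
    have e1 : Real.exp (((2 : ℕ) : ℝ) * (-r / 2)) = Real.exp (-r) := by
      congr 1; push_cast; ring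
    rw [e1, mul_assoc, mul_sub, mul_one, ← Real.exp_add]
    simp
  have hnorm : ‖ξ‖ ^ 2 = ℓ' ^ 2 * (‖ζ‖ ^ 2 + 2 * (2 * Real.pi)⁻¹ * inner ℝ ζ (vec n) +
      (2 * Real.pi)⁻¹ ^ 2 * ‖vec n‖ ^ 2) := by
    conv_lhs => rw [hξ]
    rw [norm_smul, mul_pow, Real.norm_of_nonneg hℓ'0.le, norm_add_sq_real, real_inner_smul_right,
      norm_smul, mul_pow, Real.norm_of_nonneg (by positivity)]
    ring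
  have hpi := Real.pi_pos
  have hmain : ℓ ^ 2 * (1 - Real.exp (-r)) * sqNorm n
      - 4 * Real.pi ^ 2 * ‖ξ‖ ^ 2 * (Real.exp r - 1) =
      -(ℓ ^ 2 * (1 - Real.exp (-r)) * (4 * Real.pi ^ 2 * ‖ζ‖ ^ 2 +
        4 * Real.pi * inner ℝ ζ (vec n))) := by
    have e2 : 4 * Real.pi ^ 2 * ‖ξ‖ ^ 2 * (Real.exp r - 1) = (ℓ' ^ 2 * (Real.exp r - 1)) *
        (4 * Real.pi ^ 2 * (‖ζ‖ ^ 2 + 2 * (2 * Real.pi)⁻¹ * inner ℝ ζ (vec n) +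
      (2 * Real.pi)⁻¹ ^ 2 * ‖vec n‖ ^ 2)) := by
      rw [hnorm]; ring
    rw [e2, hℓ'2, hsq]
    field_simp
    ring
  rw [hmain, abs_neg, abs_mul]
  have h5 : 0 ≤ 1 - Real.exp (-r) := by
    have := Real.exp_le_one_iff.2 (neg_nonpos.2 hr)
    linarith
  have h6 : 1 - Real.exp (-r) ≤ 1 := by linarith [Real.exp_pos (-r)]
  rw [abs_of_nonneg (mul_nonneg (sq_nonneg ℓ) h5)]
  have hn := norm_nonneg n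
  have hz := norm_nonneg ζ
  have hd : (0 : ℝ) ≤ d := Nat.cast_nonneg d
  have h7 : |4 * Real.pi ^ 2 * ‖ζ‖ ^ 2 + 4 * Real.pi * inner ℝ ζ (vec n)| ≤
      4 * Real.pi ^ 2 * ((1 + d * ‖n‖) * (1 + ‖ζ‖) ^ 2) := by
    have i1 : |inner ℝ ζ (vec n)| ≤ ‖ζ‖ * (d * ‖n‖) :=
      (abs_real_inner_le_norm _ _).trans (mul_le_mul_of_nonneg_left (norm_vec_le n) hz)
    have i2 : |4 * Real.pi ^ 2 * ‖ζ‖ ^ 2 + 4 * Real.pi * inner ℝ ζ (vec n)| ≤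
        4 * Real.pi ^ 2 * ‖ζ‖ ^ 2 + 4 * Real.pi * (‖ζ‖ * (d * ‖n‖)) := by
      refine (abs_add_le _ _).trans ?_
      rw [abs_of_nonneg (by positivity : 0 ≤ 4 * Real.pi ^ 2 * ‖ζ‖ ^ 2), abs_mul (4 * Real.pi),
        abs_of_nonneg (by positivity : 0 ≤ 4 * Real.pi)]
      gcongr
    refine i2.trans ?_
    have i3 : 4 * Real.pi * (‖ζ‖ * (d * ‖n‖)) ≤ 4 * Real.pi ^ 2 * (‖ζ‖ * (d * ‖n‖)) := by
      have : Real.pi ≤ Real.pi ^ 2 := by nlinarith [Real.pi_gt_three]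
      have h0 : 0 ≤ ‖ζ‖ * (d * ‖n‖) := by positivity
      nlinarith
    have i4 : ‖ζ‖ ^ 2 + ‖ζ‖ * (d * ‖n‖) ≤ (1 + d * ‖n‖) * (1 + ‖ζ‖) ^ 2 := by
      have h0 : 0 ≤ (d : ℝ) * ‖n‖ := by positivity
      nlinarith [mul_nonneg h0 hz, mul_nonneg h0 (mul_nonneg hz hz)]
    have i5 : 4 * Real.pi ^ 2 * ‖ζ‖ ^ 2 + 4 * Real.pi ^ 2 * (‖ζ‖ * (d * ‖n‖)) =
        4 * Real.pi ^ 2 * (‖ζ‖ ^ 2 + ‖ζ‖ * (d * ‖n‖)) := by ring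
    have i6 : 4 * Real.pi ^ 2 * (‖ζ‖ ^ 2 + ‖ζ‖ * (d * ‖n‖)) ≤
        4 * Real.pi ^ 2 * ((1 + d * ‖n‖) * (1 + ‖ζ‖) ^ 2) := by gcongr
    linarith
  calc ℓ ^ 2 * (1 - Real.exp (-r)) * |4 * Real.pi ^ 2 * ‖ζ‖ ^ 2 + 4 * Real.pi * inner ℝ ζ (vec n)|
      ≤ ℓ ^ 2 * 1 * (4 * Real.pi ^ 2 * ((1 + d * ‖n‖) * (1 + ‖ζ‖) ^ 2)) := by gcongr
    _ = 4 * Real.pi ^ 2 * (ℓ * (ℓ + d * (ℓ * ‖n‖))) * (1 + ‖ζ‖) ^ 2 := by ring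
    _ ≤ 4 * Real.pi ^ 2 * (ℓ * ((1 + d) * (1 + ℓ * ‖n‖))) * (1 + ‖ζ‖) ^ 2 := by
        have : ℓ + d * (ℓ * ‖n‖) ≤ (1 + d) * (1 + ℓ * ‖n‖) := by
          nlinarith [mul_nonneg hℓ.le hn, mul_nonneg hd (mul_nonneg hℓ.le hn)]
        gcongr
    _ = _ := by ring

/-- The error of one packet. -/
noncomputable def err (m : ℕ) (w r : ℝ) (χ : 𝓢(E d, ℂ)) (ℓ : ℝ) (n : Lat d) (ξ : E d) : ℂ :=
  freeMul m w ℓ r n * gd χ (ℓ * Real.exp (-r / 2)) n ξ - S0d m w r (gd χ ℓ n) ξ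

/-- The constant of (K3). -/
noncomputable def cK3 (χ : 𝓢(E d, ℂ)) (s : ℕ) : ℝ :=
  4 * Real.pi ^ 2 * (1 + d) ^ (s + 1) * ∫ ζ : E d, (1 + ‖ζ‖) ^ (s + 2) * ‖(𝓕 χ : 𝓢(E d, ℂ)) ζ‖

theorem cK3_nonneg (χ : 𝓢(E d, ℂ)) (s : ℕ) : 0 ≤ cK3 χ s := by
  unfold cK3
  have : 0 ≤ ∫ ζ : E d, (1 + ‖ζ‖) ^ (s + 2) * ‖(𝓕 χ : 𝓢(E d, ℂ)) ζ‖ :=
    integral_nonneg fun ζ => by positivity
  positivity

theorem continuous_S0d (m : ℕ) (w r : ℝ) {φ : E d → ℂ} (h : Continuous φ) :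
    Continuous (S0d m w r φ) := by
  unfold S0d
  fun_prop

theorem err_le (m : ℕ) (w : ℝ) {r : ℝ} (hr : 0 ≤ r) (χ : 𝓢(E d, ℂ)) {ℓ : ℝ} (hℓ : 0 < ℓ)
    (hℓ1 : ℓ ≤ 1) (s : ℕ) (n : Lat d) :
    Integrable (fun ξ : E d => (1 + ‖ξ‖) ^ s * ‖err m w r χ ℓ n ξ‖) ∧
    ∫ ξ : E d, (1 + ‖ξ‖) ^ s * ‖err m w r χ ℓ n ξ‖ ≤ cK3 χ s * ℓ * (1 + ℓ * ‖n‖) ^ (s + 1) := by
  set ℓ' := ℓ * Real.exp (-r / 2) with hℓ'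
  have he : Real.exp (-r / 2) ≤ 1 := Real.exp_le_one_iff.2 (by linarith)
  have hℓ'0 : 0 < ℓ' := by positivity
  have hℓ'ℓ : ℓ' ≤ ℓ := by
    rw [hℓ']
    nlinarith
  have hmeas : AEStronglyMeasurable (err m w r χ ℓ n) := by
    refine Continuous.aestronglyMeasurable ?_
    unfold err
    exact (continuous_const.mul (continuous_gd χ _ n)).sub
      (continuous_S0d m w r (continuous_gd χ ℓ n))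
  have hle : ∀ ξ, ‖err m w r χ ℓ n ξ‖ ≤ (4 * Real.pi ^ 2 * (1 + d) * ℓ * (1 + ℓ * ‖n‖)) *
      ((ℓ' ^ d)⁻¹ * ((1 + ‖ℓ'⁻¹ • ξ - (2 * Real.pi)⁻¹ • vec n‖) ^ 2 *
      ‖(𝓕 χ : 𝓢(E d, ℂ)) (ℓ'⁻¹ • ξ - (2 * Real.pi)⁻¹ • vec n)‖)) := by
    intro ξ
    have e1 : err m w r χ ℓ n ξ = Complex.exp (((-(aa m) : ℝ) + Complex.I * w) * r) *
        (Complex.exp (-(Complex.I * ((ℓ ^ 2 * (1 - Real.exp (-r)) * sqNorm n : ℝ) : ℂ))) -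
        Complex.exp (-(Complex.I * ((4 * Real.pi ^ 2 * ‖ξ‖ ^ 2 * (Real.exp r - 1) : ℝ) : ℂ)))) *
        gd χ ℓ' n ξ := by
      unfold err
      rw [S0d_gd m w r χ hℓ n ξ]
      unfold freeMul
      rw [sub_eq_add_neg (_ * _) (Complex.I * _), Complex.exp_add]
      ring
    rw [e1, norm_mul, norm_mul]
    have h2 : ‖Complex.exp (((-(aa m) : ℝ) + Complex.I * w) * r)‖ ≤ 1 := by
      rw [Complex.norm_exp, Real.exp_le_one_iff]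
      have := mul_nonneg (aa_nonneg m) hr
      simp
      linarith
    have h3 := (norm_exp_sub_le (ℓ ^ 2 * (1 - Real.exp (-r)) * sqNorm n)
      (4 * Real.pi ^ 2 * ‖ξ‖ ^ 2 * (Real.exp r - 1))).trans (phase_sub_le hℓ hℓ1 hr n ξ)
    have h4 : ‖gd χ ℓ' n ξ‖ = (ℓ' ^ d)⁻¹ * ‖(𝓕 χ : 𝓢(E d, ℂ)) (ℓ'⁻¹ • ξ
        - (2 * Real.pi)⁻¹ • vec n)‖ := by
      unfold gd
      rw [norm_mul, norm_inv, Complex.norm_real, Real.norm_of_nonneg (by positivity)]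
    rw [h4]
    calc _ ≤ 1 * (4 * Real.pi ^ 2 * (1 + d) * ℓ * (1 + ℓ * ‖n‖) *
        (1 + ‖ℓ'⁻¹ • ξ - (2 * Real.pi)⁻¹ • vec n‖) ^ 2) * ((ℓ' ^ d)⁻¹ *
        ‖(𝓕 χ : 𝓢(E d, ℂ)) (ℓ'⁻¹ • ξ - (2 * Real.pi)⁻¹ • vec n)‖) := by gcongr
      _ = _ := by ring
  have h := packet_le2 (𝓕 χ : 𝓢(E d, ℂ)) s 2 hℓ'0 (hℓ'ℓ.trans hℓ1) n (by positivity) hmeas hle
  refine ⟨h.1, h.2.trans ?_⟩
  have hI : 0 ≤ ∫ ζ : E d, (1 + ‖ζ‖) ^ (s + 2) * ‖(𝓕 χ : 𝓢(E d, ℂ)) ζ‖ :=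
    integral_nonneg fun ζ => by positivity
  calc 4 * Real.pi ^ 2 * (1 + d) * ℓ * (1 + ℓ * ‖n‖) * (((1 + d) * (1 + ℓ' * ‖n‖)) ^ s *
        ∫ ζ : E d, (1 + ‖ζ‖) ^ (s + 2) * ‖(𝓕 χ : 𝓢(E d, ℂ)) ζ‖)
      ≤ 4 * Real.pi ^ 2 * (1 + d) * ℓ * (1 + ℓ * ‖n‖) * (((1 + d) * (1 + ℓ * ‖n‖)) ^ s *
        ∫ ζ : E d, (1 + ‖ζ‖) ^ (s + 2) * ‖(𝓕 χ : 𝓢(E d, ℂ)) ζ‖) := by gcongr
    _ = _ := by
      unfold cK3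
      rw [mul_pow]
      ring

end Vale.Agent.P139.L
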