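import Vale.Agent.P139.H308.Pairs
import Vale.Agent.P139.H42.Lin2

/-!
# P139 / block L (helper308): the statements for the package `H42.st_semi`
-/

open Set Filter Topology MeasureTheory
open scoped ComplexConjugate ContDiff FourierTransform SchwartzMap

namespace Vale.Agent.P139.L

open Vale.Agent.P139.A Vale.Agent.P139.A.WA Vale.Agent.P139.BU Vale.Agent.P139.N
open Vale.Agent.P139.H42 Vale.Agent.P139.WA

variable {d k : ℕ}

theorem cc_eq (m : ℕ) (w : ℝ) : cc m w = -(aa m) + Complex.I * w := by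
  unfold cc
  push_cast
  rfl

theorem S0p_eq (m : ℕ) (w : ℝ) (j : ℕ) (r : ℝ) :
    (S0p m w j r : (X1 d j × X1 d j) →L[ℂ] (X1 d j × X1 d j)) =
      flowP d j zero_le_one (-(aa m) + Complex.I * w) (4 * Real.pi ^ 2) r := by
  unfold S0p
  rw [cc_eq]

theorem W1_conj (m : ℕ) (z : ℂ) : conj (W1 m z) = W1 m z := by
  unfold W1
  rw [map_pow, map_mul, Complex.conj_conj, mul_comm]

/-- The potential `|Q|^{2m}` is real. -/
theorem star_V1 {m j : ℕ} {Q : E d → ℂ} {V₁ : X1 d j} (h1 : ∀ y, BU.ev V₁ y = W1 m (Q y)) :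
    starX zero_le_one V₁ = V₁ := by
  apply BU.ev_injective zero_le_one
  intro y
  rw [ev_starX, h1, W1_conj]

/-- (Rb) for the potential operator `BX`. -/
theorem RbX {m : ℕ} {j : ℕ} (hj : j ≤ k) {ℓ : ℝ} (hℓ : 0 < ℓ) (hℓ1 : ℓ ≤ 1)
    {Q : E d → ℂ} {C : ℝ} (hQ : H201.WienerRep k Q C) {V₁ V₂ : X1 d j}
    (h1 : ∀ y, BU.ev V₁ y = W1 m (Q y)) (h2 : ∀ y, BU.ev V₂ y = W2 m (Q y)) (v : WA d k) :
    Rp (c1S d) j ℓ (BW m (Up k Q ℓ) v) = BX zero_le_one m V₁ V₂ (Rp (c1S d) j ℓ v) := by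
  rw [BX_eq zero_le_one m (star_V1 h1)]
  refine Rb hj hℓ hℓ1 hQ (fun y => ?_) (fun y => ?_) v
  · rw [BU.ev_smul zero_le_one, h1]
    ring
  · rw [BU.ev_smul zero_le_one, h2]
    ring

/-- (K3) against `flowP`. -/
theorem K3X (m : ℕ) (w : ℝ) (χ : 𝓢(E d, ℂ)) {j : ℕ} (hj : j + 1 ≤ k) {ℓ s t : ℝ}
    (hℓ : 0 < ℓ) (hℓ1 : ℓ ≤ 1) (hs : 0 ≤ s) (hst : s ≤ t) (v : WA d k) :
    ‖Rp χ j (sc ℓ t) (N.Uf (aa m) w ℓ t s v) -
      flowP d j zero_le_one (-(aa m) + Complex.I * w) (4 * Real.pi ^ 2) (t - s)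
        (Rp χ j (sc ℓ s) v)‖ ≤ 2 * cK3 χ j * ℓ * Nn (sc ℓ s) (j + 1) v := by
  rw [← S0p_eq]
  exact K3P m w χ hj hℓ hℓ1 hs hst v

/-- The potential operator is bounded. -/
theorem norm_BX_le {m j : ℕ} (V₁ V₂ : X1 d j) (x : X1 d j × X1 d j) :
    ‖BX zero_le_one m V₁ V₂ x‖ ≤ ‖BX (d := d) (s := j) zero_le_one m V₁ V₂‖ * ‖x‖ :=
  ContinuousLinearMap.le_opNorm _ x

end Vale.Agent.P139.L
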