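import Vale.Agent.P139.H308.PacketK3
import Vale.Agent.P139.BU.WX
import Vale.Agent.P139.H42.WX3

/-!
# P139 / block L (helper308): the restriction operator from the torus to `ℝ^d`

`Rs χ j ℓ v ∈ X1 d j` represents `y ↦ χ(ℓ y) v(ℓ y)`.
* `ev_Rs`, `norm_Rs_le` (K1), `K3` (intertwining with the free flow).
-/

open Set Filter Topology MeasureTheory
open scoped ComplexConjugate ContDiff FourierTransform SchwartzMap

namespace Vale.Agent.P139.L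

open Vale.Agent.P139.A Vale.Agent.P139.A.WA Vale.Agent.P139.BU Vale.Agent.P139.N

variable {d k : ℕ}

/-! ### Synthesis -/

section synth

variable {X : Type*} [NormedAddCommGroup X] [NormedSpace ℂ X] [CompleteSpace X]

theorem summable_synth {g : Lat d → X} {B : ℝ} (h : ∀ n, ‖g n‖ ≤ B * W k n) (v : WA d k) :
    Summable fun n => ‖coef v n • g n‖ := by
  refine Summable.of_nonneg_of_le (fun _ => norm_nonneg _) (fun n => ?_) (v.summable.mul_left B)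
  rw [norm_smul]
  calc ‖coef v n‖ * ‖g n‖ ≤ ‖coef v n‖ * (B * W k n) := by gcongr; exact h n
    _ = B * (W k n * ‖coef v n‖) := by ring

/-- The operator `v ↦ ∑ v_n g_n`. -/
noncomputable def synth (g : Lat d → X) {B : ℝ} (h : ∀ n, ‖g n‖ ≤ B * W k n) : WA d k →L[ℂ] X :=
  LinearMap.mkContinuous
    { toFun := fun v => ∑' n, coef v n • g n
      map_add' := fun u v => by
        rw [← (summable_synth h u).of_norm.tsum_add (summable_synth h v).of_norm]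
        exact tsum_congr fun n => by rw [coef_add, add_smul]
      map_smul' := fun c v => by
        rw [RingHom.id_apply, ← (summable_synth h v).of_norm.tsum_const_smul c]
        exact tsum_congr fun n => by rw [coef_smul, mul_smul] } B
    (fun v => by
      simp only [LinearMap.coe_mk, AddHom.coe_mk]
      refine (norm_tsum_le_tsum_norm (summable_synth h v)).trans ?_
      rw [norm_eq, ← tsum_mul_left]
      refine (summable_synth h v).tsum_le_tsum (fun n => ?_) (v.summable.mul_left B)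
      rw [norm_smul]
      calc ‖coef v n‖ * ‖g n‖ ≤ ‖coef v n‖ * (B * W k n) := by gcongr; exact h n
        _ = B * (W k n * ‖coef v n‖) := by ring)

theorem synth_apply (g : Lat d → X) {B : ℝ} (h : ∀ n, ‖g n‖ ≤ B * W k n) (v : WA d k) :
    synth g h v = ∑' n, coef v n • g n := rfl

open Classical in
/-- The operator `v ↦ ∑ v_n g_n` (zero if the family `g` is not bounded by the weight). -/
noncomputable def synT (k : ℕ) (g : Lat d → X) : WA d k →L[ℂ] X :=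
  if h : ∃ B : ℝ, ∀ n, ‖g n‖ ≤ B * W k n then synth g h.choose_spec else 0

theorem synT_apply {g : Lat d → X} {B : ℝ} (h : ∀ n, ‖g n‖ ≤ B * W k n) (v : WA d k) :
    synT k g v = ∑' n, coef v n • g n := by
  unfold synT
  rw [dif_pos ⟨B, h⟩]
  rfl

end synth

/-! ### The packets -/

theorem wt_one_le (s : ℕ) (ξ : E d) : wt 1 s ξ ≤ 2 * (1 + ‖ξ‖) ^ s := by
  unfold wt
  have h1 : (1 : ℝ) ≤ (1 + ‖ξ‖) ^ s := one_le_pow₀ (by linarith [norm_nonneg ξ])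
  have h2 : ‖ξ‖ ^ s ≤ (1 + ‖ξ‖) ^ s := pow_le_pow_left₀ (norm_nonneg ξ) (by linarith) s
  linarith

/-- Densities with a weighted integral bound. -/
theorem mem_of_bound {s : ℕ} {φ : E d → ℂ} (hm : AEStronglyMeasurable φ)
    (hi : Integrable fun ξ : E d => (1 + ‖ξ‖) ^ s * ‖φ ξ‖) :
    Integrable φ (nuK d s 1) ∧
      ∫ ξ, wt 1 s ξ * ‖φ ξ‖ ≤ 2 * ∫ ξ : E d, (1 + ‖ξ‖) ^ s * ‖φ ξ‖ := by
  have h1 : Integrable fun ξ : E d => wt 1 s ξ * ‖φ ξ‖ := by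
    refine (hi.const_mul 2).mono' ((continuous_wt 1 s).aestronglyMeasurable.mul hm.norm)
      (Eventually.of_forall fun ξ => ?_)
    rw [Real.norm_of_nonneg (mul_nonneg (wt_pos zero_le_one s ξ).le (norm_nonneg _)), ← mul_assoc]
    exact mul_le_mul_of_nonneg_right (wt_one_le s ξ) (norm_nonneg _)
  refine ⟨(integrable_nuK_iff zero_le_one).2 ⟨hm, h1⟩, ?_⟩
  rw [← integral_const_mul]
  refine integral_mono h1 (hi.const_mul 2) fun ξ => ?_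
  simp only
  rw [← mul_assoc]
  exact mul_le_mul_of_nonneg_right (wt_one_le s ξ) (norm_nonneg _)

open Classical in
/-- The element of `X1 d j` with density `φ`. -/
noncomputable def mkT (j : ℕ) (φ : E d → ℂ) : X1 d j :=
  if h : Integrable φ (nuK d j 1) then mkX h else 0

theorem mkT_eq {j : ℕ} {φ : E d → ℂ} (h : Integrable φ (nuK d j 1)) : mkT j φ = mkX h := by
  unfold mkT
  rw [dif_pos h]

/-- The packet as an element of `X1 d j`. -/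
noncomputable def pk (χ : 𝓢(E d, ℂ)) (j : ℕ) (ℓ : ℝ) (n : Lat d) : X1 d j := mkT j (gd χ ℓ n)

theorem pk_int (χ : 𝓢(E d, ℂ)) (j : ℕ) {ℓ : ℝ} (hℓ : 0 < ℓ) (hℓ1 : ℓ ≤ 1) (n : Lat d) :
    Integrable (gd χ ℓ n) (nuK d j 1) :=
  (mem_of_bound (continuous_gd χ ℓ n).aestronglyMeasurable
    (packet_le (𝓕 χ : 𝓢(E d, ℂ)) j hℓ hℓ1 n).1).1

theorem norm_pk_le (χ : 𝓢(E d, ℂ)) (j : ℕ) {ℓ : ℝ} (hℓ : 0 < ℓ) (hℓ1 : ℓ ≤ 1) (n : Lat d) :
    ‖pk χ j ℓ n‖ ≤ 2 * cst (𝓕 χ : 𝓢(E d, ℂ)) j * (1 + ℓ * ‖n‖) ^ j := by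
  rw [pk, mkT_eq (pk_int χ j hℓ hℓ1 n), norm_mkX zero_le_one, mul_assoc]
  have h := packet_le (𝓕 χ : 𝓢(E d, ℂ)) j hℓ hℓ1 n
  refine (mem_of_bound (continuous_gd χ ℓ n).aestronglyMeasurable h.1).2.trans ?_
  exact mul_le_mul_of_nonneg_left h.2 zero_le_two

theorem wtn_le {ℓ : ℝ} (hℓ : 0 ≤ ℓ) (hℓ1 : ℓ ≤ 1) {j : ℕ} (hj : j ≤ k) (n : Lat d) :
    (1 + ℓ * ‖n‖) ^ j ≤ W k n := by
  have hn := norm_nonneg n
  unfold W
  calc (1 + ℓ * ‖n‖) ^ j ≤ (1 + ‖n‖) ^ j := by gcongr; nlinarith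
    _ ≤ (1 + ‖n‖) ^ k := pow_le_pow_right₀ (by linarith) hj

theorem norm_pk_le' (χ : 𝓢(E d, ℂ)) {j : ℕ} (hj : j ≤ k) {ℓ : ℝ} (hℓ : 0 < ℓ) (hℓ1 : ℓ ≤ 1)
    (n : Lat d) : ‖pk χ j ℓ n‖ ≤ 2 * cst (𝓕 χ : 𝓢(E d, ℂ)) j * W k n := by
  refine (norm_pk_le χ j hℓ hℓ1 n).trans ?_
  have := cst_nonneg (𝓕 χ : 𝓢(E d, ℂ)) j
  have := wtn_le hℓ.le hℓ1 hj n
  gcongr

theorem ev_pk (χ : 𝓢(E d, ℂ)) (j : ℕ) {ℓ : ℝ} (hℓ : 0 < ℓ) (hℓ1 : ℓ ≤ 1) (n : Lat d) (y : E d) :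
    BU.ev (pk χ j ℓ n) y = χ (ℓ • y) * expi n (WithLp.ofLp (ℓ • y)) := by
  rw [pk, mkT_eq (pk_int χ j hℓ hℓ1 n), ev_mkX zero_le_one, fourierInv_gd χ hℓ n y]

/-! ### The restriction operator -/

/-- The restriction operator: `Rs χ j ℓ v` represents `y ↦ χ(ℓ y) v(ℓ y)`. -/
noncomputable def Rs (χ : 𝓢(E d, ℂ)) (j : ℕ) (ℓ : ℝ) : WA d k →L[ℂ] X1 d j := synT k (pk χ j ℓ)

theorem Rs_apply (χ : 𝓢(E d, ℂ)) {j : ℕ} (hj : j ≤ k) {ℓ : ℝ} (hℓ : 0 < ℓ) (hℓ1 : ℓ ≤ 1)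
    (v : WA d k) : Rs χ j ℓ v = ∑' n, coef v n • pk χ j ℓ n :=
  synT_apply (norm_pk_le' χ hj hℓ hℓ1) v

theorem Rs_summable (χ : 𝓢(E d, ℂ)) {j : ℕ} (hj : j ≤ k) {ℓ : ℝ} (hℓ : 0 < ℓ) (hℓ1 : ℓ ≤ 1)
    (v : WA d k) : Summable fun n => ‖coef v n • pk χ j ℓ n‖ :=
  summable_synth (norm_pk_le' χ hj hℓ hℓ1) v

/-- (K1), norm. -/
theorem norm_Rs_le (χ : 𝓢(E d, ℂ)) {j : ℕ} (hj : j ≤ k) {ℓ : ℝ} (hℓ : 0 < ℓ) (hℓ1 : ℓ ≤ 1)
    (v : WA d k) : ‖Rs χ j ℓ v‖ ≤ 2 * cst (𝓕 χ : 𝓢(E d, ℂ)) j * Nn ℓ j v := by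
  rw [Rs_apply χ hj hℓ hℓ1]
  refine (norm_tsum_le_tsum_norm (Rs_summable χ hj hℓ hℓ1 v)).trans ?_
  unfold Nn
  rw [← tsum_mul_left]
  refine (Rs_summable χ hj hℓ hℓ1 v).tsum_le_tsum (fun n => ?_)
    ((summable_Nn hℓ.le hℓ1 hj v).mul_left _)
  rw [norm_smul]
  calc ‖coef v n‖ * ‖pk χ j ℓ n‖
      ≤ ‖coef v n‖ * (2 * cst (𝓕 χ : 𝓢(E d, ℂ)) j * (1 + ℓ * ‖n‖) ^ j) := by
        gcongr; exact norm_pk_le χ j hℓ hℓ1 n
    _ = _ := by ring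

/-- (K1), evaluation. -/
theorem ev_Rs (χ : 𝓢(E d, ℂ)) {j : ℕ} (hj : j ≤ k) {ℓ : ℝ} (hℓ : 0 < ℓ) (hℓ1 : ℓ ≤ 1)
    (v : WA d k) (y : E d) :
    BU.ev (Rs χ j ℓ v) y = χ (ℓ • y) * WA.ev v (WithLp.ofLp (ℓ • y)) := by
  have h1 : BU.ev (Rs χ j ℓ v) y = evL zero_le_one y (Rs χ j ℓ v) := rfl
  rw [h1, Rs_apply χ hj hℓ hℓ1, (evL (d := d) (s := j) zero_le_one y).map_tsum
    (Rs_summable χ hj hℓ hℓ1 v).of_norm]
  unfold WA.ev series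
  rw [← tsum_mul_left]
  refine tsum_congr fun n => ?_
  rw [map_smul, evL_apply, ev_pk χ j hℓ hℓ1, smul_eq_mul]
  ring

/-! ### Intertwining with the free flow -/

/-- The free flow on `X1 d j`. -/
noncomputable def S0x (m : ℕ) (w : ℝ) (j : ℕ) (r : ℝ) : X1 d j →L[ℂ] X1 d j :=
  H42.flow (E d) j (κ := 1) zero_le_one (((-(aa m) : ℝ) : ℂ) + Complex.I * w) (4 * Real.pi ^ 2) r

theorem flowk_eq (m : ℕ) (w r : ℝ) (φ : E d → ℂ) (ξ : E d) :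
    H42.flowk (E d) (((-(aa m) : ℝ) : ℂ) + Complex.I * w) (4 * Real.pi ^ 2) r ξ *
      φ (H42.flowA (E d) r ξ) = S0d m w r φ ξ := by
  unfold H42.flowk H42.flowA S0d
  have h1 : ((Module.finrank ℝ (E d) : ℂ)) = (d : ℂ) := by
    rw [finrank_euclideanSpace, Fintype.card_fin]
  rw [h1]
  congr 1
  have h2 : ((Real.exp (d * r / 2) : ℝ) : ℂ) = Complex.exp ((d : ℂ) * r / 2) := by
    push_cast; rfl
  rw [h2, ← Complex.exp_add, ← Complex.exp_add]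
  congr 1
  push_cast
  ring

theorem S0x_coe (m : ℕ) (w : ℝ) (j : ℕ) {r : ℝ} (hr : 0 ≤ r) (f : X1 d j) :
    (S0x m w j r f : E d → ℂ) =ᵐ[volume] S0d m w r f := by
  have h := H42.flow_coe (V := E d) (s := j) (κ := 1) (((-(aa m) : ℝ) : ℂ) + Complex.I * w)
    (4 * Real.pi ^ 2) zero_le_one hr f
  have h2 : (S0x m w j r f : E d → ℂ) =ᵐ[nuK d j 1] fun ξ => S0d m w r f ξ := by
    filter_upwards [h] with ξ hξ
    rw [← flowk_eq]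
    exact hξ
  exact (ac_nuK zero_le_one).ae_le h2

theorem norm_S0x_le (m : ℕ) (w : ℝ) (j : ℕ) {r : ℝ} (hr : 0 ≤ r) (f : X1 d j) :
    ‖S0x m w j r f‖ ≤ Real.exp (-(aa m) * r) * ‖f‖ := by
  have h := H42.flow_norm_le (V := E d) (s := j) (κ := 1) (((-(aa m) : ℝ) : ℂ) + Complex.I * w)
    (4 * Real.pi ^ 2) zero_le_one hr
  have h2 : ((((-(aa m) : ℝ) : ℂ) + Complex.I * w)).re = -(aa m) := by simp
  rw [h2] at h
  exact (ContinuousLinearMap.le_opNorm _ f).trans (mul_le_mul_of_nonneg_right h (norm_nonneg _))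

theorem pk_flow (m : ℕ) (w : ℝ) {r : ℝ} (hr : 0 ≤ r) (χ : 𝓢(E d, ℂ)) (j : ℕ) {ℓ : ℝ} (hℓ : 0 < ℓ)
    (hℓ1 : ℓ ≤ 1) (n : Lat d) :
    ‖freeMul m w ℓ r n • pk χ j (ℓ * Real.exp (-r / 2)) n - S0x m w j r (pk χ j ℓ n)‖ ≤
      2 * cK3 χ j * ℓ * (1 + ℓ * ‖n‖) ^ (j + 1) := by
  set ℓ' := ℓ * Real.exp (-r / 2) with hℓ'
  have he : Real.exp (-r / 2) ≤ 1 := Real.exp_le_one_iff.2 (by linarith)
  have hℓ'0 : 0 < ℓ' := by positivity
  have hℓ'ℓ : ℓ' ≤ ℓ := by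
    rw [hℓ']
    nlinarith
  have hℓ'1 : ℓ' ≤ 1 := hℓ'ℓ.trans hℓ1
  have h := err_le m w hr χ hℓ hℓ1 j n
  have hm : AEStronglyMeasurable (err m w r χ ℓ n) := by
    refine Continuous.aestronglyMeasurable ?_
    unfold err
    exact (continuous_const.mul (continuous_gd χ _ n)).sub
      (continuous_S0d m w r (continuous_gd χ ℓ n))
  have hb := mem_of_bound hm h.1
  have e1 : freeMul m w ℓ r n • pk χ j ℓ' n - S0x m w j r (pk χ j ℓ n) = mkX hb.1 := by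
    apply XK.ext_ae
    have a1 : ((pk χ j ℓ' n : X1 d j) : E d → ℂ) =ᵐ[volume] gd χ ℓ' n := by
      rw [pk, mkT_eq (pk_int χ j hℓ'0 hℓ'1 n)]
      exact coe_mkX zero_le_one _
    have a2 : ((pk χ j ℓ n : X1 d j) : E d → ℂ) =ᵐ[volume] gd χ ℓ n := by
      rw [pk, mkT_eq (pk_int χ j hℓ hℓ1 n)]
      exact coe_mkX zero_le_one _
    have a3 := S0x_coe m w j hr (pk χ j ℓ n)
    have a4 : S0d m w r ((pk χ j ℓ n : X1 d j) : E d → ℂ) =ᵐ[volume] S0d m w r (gd χ ℓ n) := by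
      have hq : Measure.QuasiMeasurePreserving (fun ξ : E d => Real.exp (r / 2) • ξ)
          volume volume :=
        ⟨by fun_prop, by
          rw [Measure.map_addHaar_smul _ (Real.exp_pos _).ne']
          exact Measure.smul_absolutelyContinuous⟩
      filter_upwards [hq.ae a2] with ξ hξ
      unfold S0d
      rw [hξ]
    have a5 : ((freeMul m w ℓ r n • pk χ j ℓ' n - S0x m w j r (pk χ j ℓ n) : X1 d j) : E d → ℂ)
        =ᵐ[volume] fun ξ => (freeMul m w ℓ r n • pk χ j ℓ' n : X1 d j) ξ -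
          (S0x m w j r (pk χ j ℓ n) : X1 d j) ξ :=
      (ac_nuK zero_le_one).ae_le (Lp.coeFn_sub _ _)
    have a6 := XK.ae_smul zero_le_one (freeMul m w ℓ r n) (pk χ j ℓ' n)
    filter_upwards [a1, a3, a4, a5, a6, coe_mkX zero_le_one hb.1] with ξ b1 b3 b4 b5 b6 b7
    rw [b5, b6, b3, b4, b1, b7]
    rfl
  rw [e1, norm_mkX zero_le_one]
  refine hb.2.trans ?_
  have := mul_le_mul_of_nonneg_left h.2 (zero_le_two (α := ℝ))
  refine this.trans (le_of_eq ?_)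
  ring

/-- (K3): the restriction operator intertwines the free flows up to `O(ℓ)`. -/
theorem K3 (m : ℕ) (w : ℝ) {r : ℝ} (hr : 0 ≤ r) (χ : 𝓢(E d, ℂ)) {j : ℕ} (hj : j + 1 ≤ k) {ℓ : ℝ}
    (hℓ : 0 < ℓ) (hℓ1 : ℓ ≤ 1) (v : WA d k) :
    ‖Rs χ j (ℓ * Real.exp (-r / 2)) (Uf m w ℓ r v) - S0x m w j r (Rs χ j ℓ v)‖ ≤
      2 * cK3 χ j * ℓ * Nn ℓ (j + 1) v := by
  set ℓ' := ℓ * Real.exp (-r / 2) with hℓ'
  have he : Real.exp (-r / 2) ≤ 1 := Real.exp_le_one_iff.2 (by linarith)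
  have hℓ'0 : 0 < ℓ' := by positivity
  have hℓ'ℓ : ℓ' ≤ ℓ := by
    rw [hℓ']
    nlinarith
  have hℓ'1 : ℓ' ≤ 1 := hℓ'ℓ.trans hℓ1
  have hj' : j ≤ k := by omega
  rw [Rs_apply χ hj' hℓ'0 hℓ'1, Rs_apply χ hj' hℓ hℓ1,
    (S0x m w j r).map_tsum (Rs_summable χ hj' hℓ hℓ1 v).of_norm,
    ← (Rs_summable χ hj' hℓ'0 hℓ'1 (Uf m w ℓ r v)).of_norm.tsum_sub
      ((S0x m w j r).summable (Rs_summable χ hj' hℓ hℓ1 v).of_norm)]
  have hterm : ∀ n : Lat d, ‖coef (Uf m w ℓ r v) n • pk χ j ℓ' n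
      - S0x m w j r (coef v n • pk χ j ℓ n)‖ ≤
      2 * cK3 χ j * ℓ * ((1 + ℓ * ‖n‖) ^ (j + 1) * ‖coef v n‖) := by
    intro n
    have e1 : coef (Uf m w ℓ r v) n • pk χ j ℓ' n - S0x m w j r (coef v n • pk χ j ℓ n) =
        coef v n • (freeMul m w ℓ r n • pk χ j ℓ' n - S0x m w j r (pk χ j ℓ n)) := by
      rw [coef_Uf, map_smul, smul_sub, smul_smul, mul_comm (coef v n)]
    rw [e1, norm_smul]
    calc ‖coef v n‖ * ‖freeMul m w ℓ r n • pk χ j ℓ' n - S0x m w j r (pk χ j ℓ n)‖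
        ≤ ‖coef v n‖ * (2 * cK3 χ j * ℓ * (1 + ℓ * ‖n‖) ^ (j + 1)) := by
          gcongr; exact pk_flow m w hr χ j hℓ hℓ1 n
      _ = _ := by ring
  have hs : Summable fun n : Lat d => 2 * cK3 χ j * ℓ * ((1 + ℓ * ‖n‖) ^ (j + 1) * ‖coef v n‖) :=
    (summable_Nn hℓ.le hℓ1 hj v).mul_left _
  refine (tsum_of_norm_bounded hs.hasSum hterm).trans (le_of_eq ?_)
  unfold Nn
  rw [tsum_mul_left]

end Vale.Agent.P139.L
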