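import Vale.Agent.P139.H308.Restr
import Vale.Agent.P139.H579.Mild

/-!
# P139 / block L (helper308): continuity of the restriction operator, pairs
-/

open Set Filter Topology MeasureTheory
open scoped ComplexConjugate ContDiff FourierTransform SchwartzMap

namespace Vale.Agent.P139.L

open Vale.Agent.P139.A Vale.Agent.P139.A.WA Vale.Agent.P139.BU Vale.Agent.P139.N

variable {d k : ℕ}

/-! ### Dilations -/

/-- The dilation flow on `X1 d j`: `dil j t f` represents `y ↦ f(e^{-t/2} y)`. -/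
noncomputable def dil (j : ℕ) (t : ℝ) : X1 d j →L[ℂ] X1 d j :=
  H42.flow (E d) j (κ := 1) zero_le_one 0 0 t

theorem dil_coe (j : ℕ) {t : ℝ} (ht : 0 ≤ t) (f : X1 d j) :
    (dil j t f : E d → ℂ) =ᵐ[volume]
      fun ξ => ((Real.exp (d * t / 2) : ℝ) : ℂ) * f (Real.exp (t / 2) • ξ) := by
  have h := H42.flow_coe (V := E d) (s := j) (κ := 1) 0 0 zero_le_one ht f
  have h2 : (dil j t f : E d → ℂ) =ᵐ[nuK d j 1]
      fun ξ => ((Real.exp (d * t / 2) : ℝ) : ℂ) * f (Real.exp (t / 2) • ξ) := by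
    filter_upwards [h] with ξ hξ
    refine hξ.trans ?_
    unfold H42.flowk H42.flowA
    have h1 : ((Module.finrank ℝ (E d) : ℂ)) = (d : ℂ) := by
      rw [finrank_euclideanSpace, Fintype.card_fin]
    rw [h1]
    congr 1
    push_cast
    congr 1
    ring
  exact (ac_nuK zero_le_one).ae_le h2

theorem norm_dil_le (j : ℕ) {t : ℝ} (ht : 0 ≤ t) (f : X1 d j) : ‖dil j t f‖ ≤ ‖f‖ := by
  have h := H42.flow_norm_le (V := E d) (s := j) (κ := 1) 0 0 zero_le_one ht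
  rw [Complex.zero_re, zero_mul, Real.exp_zero] at h
  refine (ContinuousLinearMap.le_opNorm _ f).trans ?_
  have := mul_le_mul_of_nonneg_right h (norm_nonneg f)
  rwa [one_mul] at this

theorem dil_cont (j : ℕ) (f : X1 d j) : ContinuousOn (fun t => dil j t f) (Ici 0) :=
  (H42.flow_isSG (V := E d) (s := j) (κ := 1) 0 0 zero_le_one).cont f

theorem quasi_smul {c : ℝ} (hc : c ≠ 0) :
    Measure.QuasiMeasurePreserving (fun ξ : E d => c • ξ) volume volume :=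
  ⟨by fun_prop, by
    rw [Measure.map_addHaar_smul _ hc]
    exact Measure.smul_absolutelyContinuous⟩

theorem pk_dil (χ : 𝓢(E d, ℂ)) (j : ℕ) {ℓ t : ℝ} (hℓ : 0 < ℓ) (hℓ1 : ℓ ≤ 1) (ht : 0 ≤ t)
    (n : Lat d) : pk χ j (ℓ * Real.exp (-t / 2)) n = dil j t (pk χ j ℓ n) := by
  have he : Real.exp (-t / 2) ≤ 1 := Real.exp_le_one_iff.2 (by linarith)
  set ℓ' := ℓ * Real.exp (-t / 2) with hℓ'
  have hℓ'0 : 0 < ℓ' := by positivity
  have hℓ'1 : ℓ' ≤ 1 := by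
    have : ℓ' ≤ ℓ * 1 := by rw [hℓ']; gcongr
    linarith
  apply XK.ext_ae
  have a1 : ((pk χ j ℓ' n : X1 d j) : E d → ℂ) =ᵐ[volume] gd χ ℓ' n := by
    rw [pk, mkT_eq (pk_int χ j hℓ'0 hℓ'1 n)]
    exact coe_mkX zero_le_one _
  have a2 : ((pk χ j ℓ n : X1 d j) : E d → ℂ) =ᵐ[volume] gd χ ℓ n := by
    rw [pk, mkT_eq (pk_int χ j hℓ hℓ1 n)]
    exact coe_mkX zero_le_one _
  filter_upwards [a1, (quasi_smul (Real.exp_pos (t / 2)).ne').ae a2, dil_coe j ht (pk χ j ℓ n)]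
    with ξ b1 b2 b3
  rw [b1, b3, b2]
  unfold gd
  have h1 : ℓ'⁻¹ = ℓ⁻¹ * Real.exp (t / 2) := by
    rw [hℓ', mul_inv, ← Real.exp_neg]
    congr 2
    ring
  have h2 : ℓ⁻¹ • Real.exp (t / 2) • ξ = ℓ'⁻¹ • ξ := by
    rw [h1, smul_smul]
  have h3 : ((Real.exp (d * t / 2) : ℝ) : ℂ) * ((ℓ ^ d : ℝ) : ℂ)⁻¹ = ((ℓ' ^ d : ℝ) : ℂ)⁻¹ := by
    rw [← Complex.ofReal_inv, ← Complex.ofReal_inv, ← Complex.ofReal_mul]
    congr 1
    rw [← inv_pow ℓ', h1, mul_pow, ← Real.exp_nat_mul, inv_pow, mul_comm]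
    congr 2
    ring
  rw [h2, ← mul_assoc, h3]

/-- The restriction operators at different scales are related by dilations. -/
theorem Rs_dil (χ : 𝓢(E d, ℂ)) {j : ℕ} (hj : j ≤ k) {ℓ t : ℝ} (hℓ : 0 < ℓ) (hℓ1 : ℓ ≤ 1)
    (ht : 0 ≤ t) (v : WA d k) :
    Rs χ j (ℓ * Real.exp (-t / 2)) v = dil j t (Rs χ j ℓ v) := by
  have he : Real.exp (-t / 2) ≤ 1 := Real.exp_le_one_iff.2 (by linarith)
  have hℓ'0 : 0 < ℓ * Real.exp (-t / 2) := by positivity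
  have hℓ'1 : ℓ * Real.exp (-t / 2) ≤ 1 := by
    have : ℓ * Real.exp (-t / 2) ≤ ℓ * 1 := by gcongr
    linarith
  rw [Rs_apply χ hj hℓ'0 hℓ'1, Rs_apply χ hj hℓ hℓ1,
    (dil j t).map_tsum (Rs_summable χ hj hℓ hℓ1 v).of_norm]
  refine tsum_congr fun n => ?_
  rw [pk_dil χ j hℓ hℓ1 ht, map_smul]

theorem Rs_eq_dil (χ : 𝓢(E d, ℂ)) {j : ℕ} (hj : j ≤ k) {ℓ : ℝ} (hℓ : 0 < ℓ) (hℓ1 : ℓ ≤ 1)
    (v : WA d k) : Rs χ j ℓ v = dil j (-2 * Real.log ℓ) (Rs χ j 1 v) := by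
  have h1 : 0 ≤ -2 * Real.log ℓ := by
    have := Real.log_nonpos hℓ.le hℓ1
    linarith
  have h2 := Rs_dil χ hj one_pos le_rfl h1 v
  rw [← h2]
  congr 2
  rw [one_mul, show -(-2 * Real.log ℓ) / 2 = Real.log ℓ by ring, Real.exp_log hℓ]

/-- The uniform bound of the restriction operators. -/
theorem norm_Rs_le' (χ : 𝓢(E d, ℂ)) {j : ℕ} (hj : j ≤ k) {ℓ : ℝ} (hℓ : 0 < ℓ) (hℓ1 : ℓ ≤ 1)
    (v : WA d k) : ‖Rs χ j ℓ v‖ ≤ 2 * cst (𝓕 χ : 𝓢(E d, ℂ)) j * ‖v‖ := by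
  refine (norm_Rs_le χ hj hℓ hℓ1 v).trans ?_
  have := cst_nonneg (𝓕 χ : 𝓢(E d, ℂ)) j
  refine mul_le_mul_of_nonneg_left ?_ (by positivity)
  rw [norm_eq]
  unfold Nn
  refine (summable_Nn hℓ.le hℓ1 hj v).tsum_le_tsum (fun n => ?_) v.summable
  exact mul_le_mul_of_nonneg_right (wtn_le hℓ.le hℓ1 hj n) (norm_nonneg _)

theorem continuousOn_Rs_left (χ : 𝓢(E d, ℂ)) {j : ℕ} (hj : j ≤ k) (v : WA d k) :
    ContinuousOn (fun ℓ => Rs χ j ℓ v) (Ioc 0 1) := by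
  have h1 : ContinuousOn (fun ℓ : ℝ => -2 * Real.log ℓ) (Ioc 0 1) :=
    continuousOn_const.mul (Real.continuousOn_log.mono fun ℓ hℓ => by
      simpa using hℓ.1.ne')
  have h2 : MapsTo (fun ℓ : ℝ => -2 * Real.log ℓ) (Ioc 0 1) (Ici 0) := fun ℓ hℓ => by
    have := Real.log_nonpos hℓ.1.le hℓ.2
    simp only [mem_Ici]
    linarith
  exact ((dil_cont j (Rs χ j 1 v)).comp h1 h2).congr fun ℓ hℓ => Rs_eq_dil χ hj hℓ.1 hℓ.2 v

/-- (K1c): joint continuity of the restriction operator. -/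
theorem continuousOn_Rs {Y : Type*} [TopologicalSpace Y] {S : Set Y} (χ : 𝓢(E d, ℂ)) {j : ℕ}
    (hj : j ≤ k) {ρ : Y → ℝ} (hρ : ContinuousOn ρ S) (h0 : ∀ y ∈ S, 0 < ρ y)
    (h1 : ∀ y ∈ S, ρ y ≤ 1) {v : Y → WA d k} (hv : ContinuousOn v S) :
    ContinuousOn (fun y => Rs χ j (ρ y) (v y)) S := by
  intro y0 hy0
  rw [ContinuousWithinAt, tendsto_iff_norm_sub_tendsto_zero]
  set C := 2 * cst (𝓕 χ : 𝓢(E d, ℂ)) j with hC
  have e1 : Tendsto (fun y => C * ‖v y - v y0‖) (𝓝[S] y0) (𝓝 0) := by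
    have := (tendsto_iff_norm_sub_tendsto_zero.1 (hv y0 hy0)).const_mul C
    rwa [mul_zero] at this
  have e2 : Tendsto (fun y => ‖Rs χ j (ρ y) (v y0) - Rs χ j (ρ y0) (v y0)‖) (𝓝[S] y0) (𝓝 0) := by
    have h2 : ContinuousOn (fun y => Rs χ j (ρ y) (v y0)) S :=
      (continuousOn_Rs_left χ hj (v y0)).comp hρ fun y hy => ⟨h0 y hy, h1 y hy⟩
    exact tendsto_iff_norm_sub_tendsto_zero.1 (h2 y0 hy0)
  have e3 := e1.add e2
  rw [add_zero] at e3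
  refine squeeze_zero' (Eventually.of_forall fun _ => norm_nonneg _) ?_ e3
  filter_upwards [self_mem_nhdsWithin] with y hy
  have e4 : Rs χ j (ρ y) (v y) - Rs χ j (ρ y0) (v y0) =
      Rs χ j (ρ y) (v y - v y0) + (Rs χ j (ρ y) (v y0) - Rs χ j (ρ y0) (v y0)) := by
    rw [map_sub]
    abel
  rw [e4]
  exact (norm_add_le _ _).trans
    (add_le_add (norm_Rs_le' χ hj (h0 y hy) (h1 y hy) _) le_rfl)

/-! ### The free propagator of `H579.Mild` -/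

theorem ufac_eq (m : ℕ) (w ℓ t s : ℝ) (n : Lat d) :
    ufac (aa m) w ℓ t s n = freeMul m w (sc ℓ s) (t - s) n := by
  unfold ufac freeMul
  rw [sc_sq]
  congr 1
  have h1 : ℓ ^ 2 * (Real.exp (-s) - Real.exp (-t)) =
      ℓ ^ 2 * Real.exp (-s) * (1 - Real.exp (-(t - s))) := by
    have h0 : Real.exp (-t) = Real.exp (-s) * Real.exp (-(t - s)) := by
      rw [← Real.exp_add]
      congr 1
      ring
    rw [h0]
    ring
  rw [h1]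
  push_cast
  ring

theorem NUf_eq (m : ℕ) (w ℓ t s : ℝ) (v : WA d k) :
    N.Uf (aa m) w ℓ t s v = L.Uf m w (sc ℓ s) (t - s) v := by
  ext n
  rw [N.coef_Uf, L.coef_Uf, ufac_eq]

theorem sc_step (ℓ t s : ℝ) : sc ℓ t = sc ℓ s * Real.exp (-(t - s) / 2) := by
  unfold sc
  rw [mul_assoc, ← Real.exp_add]
  congr 2
  ring

/-- (K3) for the propagator `N.Uf`. -/
theorem K3N (m : ℕ) (w : ℝ) (χ : 𝓢(E d, ℂ)) {j : ℕ} (hj : j + 1 ≤ k) {ℓ s t : ℝ}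
    (hℓ : 0 < ℓ) (hℓ1 : ℓ ≤ 1) (hs : 0 ≤ s) (hst : s ≤ t) (v : WA d k) :
    ‖Rs χ j (sc ℓ t) (N.Uf (aa m) w ℓ t s v) - S0x m w j (t - s) (Rs χ j (sc ℓ s) v)‖ ≤
      2 * cK3 χ j * ℓ * Nn (sc ℓ s) (j + 1) v := by
  have h1 : sc ℓ s ≤ ℓ := sc_le_self hℓ.le hs
  have h := K3 m w (r := t - s) (by linarith) χ hj (sc_pos hℓ s) (h1.trans hℓ1) v
  rw [NUf_eq, sc_step ℓ t s]
  refine h.trans ?_
  have h2 := cK3_nonneg χ j
  have h3 : 0 ≤ Nn (sc ℓ s) (j + 1) v := Nn_nonneg (sc_pos hℓ s).le _ v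
  gcongr

/-- (K4) for the propagator `N.Uf`. -/
theorem K4N (m : ℕ) (w : ℝ) {ℓ s t : ℝ} (hℓ : 0 < ℓ) (hℓ1 : ℓ ≤ 1) (hs : 0 ≤ s) (hst : s ≤ t)
    {j : ℕ} (hj : j + 1 ≤ k) (M v : WA d k)
    (hM : Summable fun n => (1 + ‖n‖) ^ (j + 2) * ‖coef M n‖) :
    Nn (sc ℓ t) j (M * N.Uf (aa m) w ℓ t s v - N.Uf (aa m) w ℓ t s (M * v)) ≤
      (2 * d * ∑' n, (1 + ‖n‖) ^ (j + 2) * ‖coef M n‖) * ℓ * Nn (sc ℓ s) (j + 1) v := by
  have h1 : sc ℓ s ≤ ℓ := sc_le_self hℓ.le hs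
  have h := K4 m w (r := t - s) (sc_pos hℓ s) (h1.trans hℓ1) (by linarith) hj M v hM
  rw [NUf_eq, NUf_eq, sc_step ℓ t s]
  refine h.trans ?_
  have h2 : 0 ≤ ∑' n, (1 + ‖n‖) ^ (j + 2) * ‖coef M n‖ := tsum_nonneg fun n => by positivity
  have h3 : 0 ≤ Nn (sc ℓ s) (j + 1) v := Nn_nonneg (sc_pos hℓ s).le _ v
  gcongr

/-! ### Pairs -/

/-- The restriction of `v` and of its conjugate, a real-linear map. -/
noncomputable def Rp (χ : 𝓢(E d, ℂ)) (j : ℕ) (ℓ : ℝ) : WA d k →L[ℝ] X1 d j × X1 d j :=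
  ((Rs χ j ℓ).restrictScalars ℝ).prod
    ((starL zero_le_one).comp ((Rs χ j ℓ).restrictScalars ℝ))

@[simp] theorem Rp_apply (χ : 𝓢(E d, ℂ)) (j : ℕ) (ℓ : ℝ) (v : WA d k) :
    Rp χ j ℓ v = (Rs χ j ℓ v, starX zero_le_one (Rs χ j ℓ v)) := rfl

theorem JX_Rp (χ : 𝓢(E d, ℂ)) (j : ℕ) (ℓ : ℝ) (v : WA d k) :
    JX zero_le_one (Rp χ j ℓ v) = Rp χ j ℓ v := by
  rw [Rp_apply, JX_apply]
  simp only [starX_starX]

end Vale.Agent.P139.L
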