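import Vale.Agent.P139.H308.Pairs2
import Vale.Agent.P139.H579.CutFlow3
import Vale.Agent.P139.H201.Ext6

/-!
# P139 / block L (helper308): the torus fields of `H605.TData`

From `Wn s Q`, `Wn s (W1 m ∘ Q)`, `Wn s (W2 m ∘ Q)` for all `s`:
`W_le`, `W0_le`, `W_cont`, `R_le`, `R_cont`, `K3`, `K4`, `Rb`, `Fb`.
-/

open Set Filter Topology MeasureTheory
open scoped ComplexConjugate ContDiff FourierTransform SchwartzMap

namespace Vale.Agent.P139.L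

open Vale.Agent.P139.A Vale.Agent.P139.A.WA Vale.Agent.P139.BU Vale.Agent.P139.N
open Vale.Agent.P139.H42 Vale.Agent.P139.WA

variable {d k : ℕ}

/-! ### The cut-off profile -/

theorem Up_loc {f : E d → ℂ} (hf : Wn k f) {ℓ : ℝ} (hℓ : 0 < ℓ) (hℓ1 : ℓ ≤ 1) :
    H201.Loc k fun x => cA x * f (ℓ⁻¹ • x) :=
  Wn.loc isCut_cA.smooth isCut_cA.supp3 hℓ hℓ1 hf

/-- The coefficients do not depend on the weight. -/
theorem coef_Up_eq {f : E d → ℂ} {k' : ℕ} (hf : Wn k f) (hf' : Wn k' f) {ℓ : ℝ} (hℓ : 0 < ℓ)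
    (hℓ1 : ℓ ≤ 1) (n : Lat d) : coef (Up k f ℓ) n = coef (Up k' f ℓ) n := by
  unfold Up
  rw [(Up_loc hf hℓ hℓ1).coef, (Up_loc hf' hℓ hℓ1).coef]

theorem W_le {f : E d → ℂ} (hf : Wn k f) : ∃ C : ℝ, 0 ≤ C ∧ ∀ ℓ : ℝ, 0 < ℓ → ℓ ≤ 1 →
    Nn ℓ k (Up k f ℓ) ≤ C :=
  Wn.bound isCut_cA.smooth isCut_cA.supp3 hf

theorem W0_le {f : E d → ℂ} (hf : ∀ s, Wn s f) : ∃ C : ℝ, 0 ≤ C ∧ ∀ (k : ℕ) (ℓ : ℝ), 0 < ℓ →
    ℓ ≤ 1 → Nn ℓ 0 (Up k f ℓ) ≤ C := by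
  obtain ⟨C, h0, h1⟩ := W_le (hf 0)
  refine ⟨C, h0, fun k ℓ hℓ hℓ1 => ?_⟩
  refine le_of_eq_of_le ?_ (h1 ℓ hℓ hℓ1)
  unfold Nn
  exact tsum_congr fun n => by rw [coef_Up_eq (hf k) (hf 0) hℓ hℓ1]

theorem W_cont {f : E d → ℂ} (hf : Wn (k + 1) f) :
    ContinuousOn (fun ℓ : ℝ => (Up k f ℓ : WA d k)) (Ioc 0 1) := by
  intro ℓ₀ hℓ₀
  have h1 : ContinuousOn (fun ℓ : ℝ => (Up k f ℓ : WA d k)) (Icc (ℓ₀ / 2) 1) :=
    continuousOn_per_scale isCut_cA.smooth isCut_cA.supp hf continuousOn_id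
      (half_pos hℓ₀.1) (fun y hy => hy.1) (fun y hy => hy.2)
  have h2 : ℓ₀ ∈ Icc (ℓ₀ / 2) 1 := ⟨by linarith [hℓ₀.1], hℓ₀.2⟩
  refine (h1 ℓ₀ h2).mono_of_mem_nhdsWithin ?_
  rw [mem_nhdsWithin]
  refine ⟨Ioi (ℓ₀ / 2), isOpen_Ioi, by simp only [mem_Ioi]; linarith [hℓ₀.1], ?_⟩
  rintro y ⟨hy1, hy2⟩
  exact ⟨le_of_lt hy1, hy2.2⟩

/-! ### The multiplier of the inner cut-off -/

/-- A smooth function supported in the ball `1/2` is localised at every order. -/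
theorem loc_smooth {χ : E d → ℂ} (hχ : ContDiff ℝ ∞ χ) (hs : ∀ x, 1 / 2 ≤ ‖x‖ → χ x = 0) (k : ℕ) :
    H201.Loc k χ := by
  set g : 𝓢(E d, ℂ) := hasCompactSupport_cA.toSchwartzMap contDiff_cA with hg
  have h1 : (fun x : E d => χ x * 𝓕⁻ ((𝓕 g : 𝓢(E d, ℂ)) : E d → ℂ) ((1 : ℝ)⁻¹ • x)) = χ := by
    funext x
    have h2 : 𝓕⁻ ((𝓕 g : 𝓢(E d, ℂ)) : E d → ℂ) ((1 : ℝ)⁻¹ • x) = cA x := by
      rw [inv_one, one_smul, SchwartzMap.fourier_coe,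
        g.continuous.fourierInv_fourier_eq g.integrable (by
          rw [← SchwartzMap.fourier_coe]
          exact (𝓕 g : 𝓢(E d, ℂ)).integrable)]
      rfl
    rw [h2]
    rcases le_total ‖x‖ (1 / 2) with h | h
    · rw [cA_eq_one h, mul_one]
    · rw [hs x h, zero_mul]
  have h3 := H201.Loc.ext (k := k) hχ (fun x hx => hs x (by linarith)) one_pos le_rfl
    (𝓕 g : 𝓢(E d, ℂ)).integrable (integrable_wt (𝓕 g : 𝓢(E d, ℂ)) k)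
  rwa [h1] at h3

theorem loc_c2 (k : ℕ) : H201.Loc k (c2 : E d → ℂ) :=
  loc_smooth contDiff_c2 (fun x hx => c2_eq_zero (by linarith)) k

/-- The multiplier of the inner cut-off. -/
noncomputable def mu (d k : ℕ) : WA d k := per k c2

theorem mu_sum (j : ℕ) : Summable fun n => (1 + ‖n‖) ^ (j + 2) * ‖coef (mu d k) n‖ := by
  have h := (loc_c2 (d := d) (j + 2)).sum
  refine h.congr fun n => ?_
  unfold mu W
  rw [(loc_c2 k).coef]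

/-- The constant of (K4). -/
noncomputable def cK4 (d j : ℕ) : ℝ := 2 * d * ∑' n, (1 + ‖n‖) ^ (j + 2) * ‖coef (mu d 0) n‖

theorem cK4_nonneg (d j : ℕ) : 0 ≤ cK4 d j := by
  unfold cK4
  have : 0 ≤ ∑' n, (1 + ‖n‖) ^ (j + 2) * ‖coef (mu d 0) n‖ := tsum_nonneg fun n => by positivity
  positivity

theorem K4mu (m : ℕ) (w : ℝ) {ℓ r : ℝ} (hℓ : 0 < ℓ) (hℓ1 : ℓ ≤ 1) (hr : 0 ≤ r) {j : ℕ}
    (hj : j + 1 ≤ k) (v : WA d k) :
    Nn (sc ℓ r) j (mu d k * N.Uf (aa m) w ℓ r 0 v - N.Uf (aa m) w ℓ r 0 (mu d k * v)) ≤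
      cK4 d j * ℓ * Nn ℓ (j + 1) v := by
  have h := K4N m w hℓ hℓ1 le_rfl hr hj (mu d k) v (mu_sum j)
  rw [sc_zero] at h
  have e : ∑' n, (1 + ‖n‖) ^ (j + 2) * ‖coef (mu d k) n‖ =
      ∑' n, (1 + ‖n‖) ^ (j + 2) * ‖coef (mu d 0) n‖ := by
    refine tsum_congr fun n => ?_
    unfold mu
    rw [(loc_c2 k).coef, (loc_c2 0).coef]
  rw [e] at h
  exact h

/-! ### The tail of the potential -/

/-- The outer cut-off `(1 - c2) cA^q`. -/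
noncomputable def cO (q : ℕ) (x : E d) : ℂ := (1 - c2 x) * cA x ^ (q + 1)

theorem cO_smooth (q : ℕ) : ContDiff ℝ ∞ (cO q : E d → ℂ) :=
  (contDiff_const.sub contDiff_c2).mul (contDiff_cA.pow _)

theorem cO_supp (q : ℕ) : ∀ x : E d, 1 ≤ ‖x‖ → cO q x = 0 := fun x hx => by
  unfold cO
  rw [cA_eq_zero hx]
  simp

theorem cO_zero (q : ℕ) : ∀ x : E d, ‖x‖ ≤ 1 / 8 → cO q x = 0 := fun x hx => by
  unfold cO
  rw [c2_eq_one hx]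
  simp

/-- The tail of a rescaled function tends to zero. -/
theorem tail_zero {j : ℕ} (hj : j ≤ k) {f : E d → ℂ} (hf : Wn k f) (q : ℕ) :
    Tendsto (fun ℓ : ℝ => Nn ℓ j (per k fun x : E d => cO q x * f (ℓ⁻¹ • x))) (𝓝[>] 0) (𝓝 0) := by
  obtain ⟨φ, h1, h2, h3⟩ := hf
  have h4 : f = 𝓕⁻ φ := funext h3
  rw [h4]
  exact H201.tail_tendsto (cO_smooth q) (fun x hx => cO_supp q x (by linarith))
    (by norm_num : (0 : ℝ) < 1 / 8) (cO_zero q) hj h1 h2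

/-- `(1 - μ) U^p conj(U)^q` is a tail. -/
theorem one_sub_mu_mul {Q f : E d → ℂ} (hQ : Wn k Q) (hf : Wn k f) {p q : ℕ}
    (hpf : ∀ y, Q y ^ p * conj (Q y) ^ q = f y) (hpq : p + q ≠ 0) {ℓ : ℝ} (hℓ : 0 < ℓ)
    (hℓ1 : ℓ ≤ 1) : (1 - mu d k) * ((Up k Q ℓ) ^ p * conjL (Up k Q ℓ) ^ q) =
      per k fun x : E d => cO (p + q - 1) x * f (ℓ⁻¹ • x) := by
  have hloc : H201.Loc k fun x : E d => cO (p + q - 1) x * f (ℓ⁻¹ • x) :=
    Wn.loc (cO_smooth _) (fun x hx => cO_supp _ x (by linarith)) hℓ hℓ1 hf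
  have hU := Up_loc hQ hℓ hℓ1
  apply WA.ev_injective
  intro x
  have e1 : WA.ev (Up k Q ℓ) x = H201.perF (fun x => cA x * Q (ℓ⁻¹ • x)) x := hU.ev_per x
  have e2 : WA.ev (mu d k) x = H201.perF c2 x := (loc_c2 k).ev_per x
  have e3 : WA.ev (1 - mu d k) x = 1 - H201.perF c2 x := by
    rw [H201.ev_sub', WA.ev_one, e2]
  rw [WA.ev_mul, WA.ev_mul, WA.ev_pow, WA.ev_pow, WA.ev_conjL, e1, e3, hloc.ev_per]
  simp only [H201.perF]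
  rw [← hpf]
  unfold cO
  have h5 : p + q - 1 + 1 = p + q := by omega
  rw [h5, mul_pow, map_mul, conj_cA, mul_pow, pow_add]
  ring

/-- (Fb). -/
theorem Fb {m : ℕ} (hm : 1 ≤ m) {j : ℕ} (hj : j ≤ k) {Q : E d → ℂ} (hQ : Wn k Q)
    (h1 : Wn k fun y => W1 m (Q y)) (h2 : Wn k fun y => W2 m (Q y)) {ℓ : ℝ} (hℓ : 0 < ℓ)
    (hℓ1 : ℓ ≤ 1) (v : WA d k) :
    Nn ℓ j (BW m (Up k Q ℓ) v - mu d k * BW m (Up k Q ℓ) v) ≤
      (((m : ℝ) + 1) * Nn ℓ j (per k fun x : E d => cO (2 * m - 1) x * W1 m (Q (ℓ⁻¹ • x))) +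
        m * Nn ℓ j (per k fun x : E d => cO (2 * m - 1) x * W2 m (Q (ℓ⁻¹ • x)))) * Nn ℓ j v := by
  set U := Up k Q ℓ with hU
  set T1 : WA d k := per k fun x : E d => cO (2 * m - 1) x * W1 m (Q (ℓ⁻¹ • x)) with hT1
  set T2 : WA d k := per k fun x : E d => cO (2 * m - 1) x * W2 m (Q (ℓ⁻¹ • x)) with hT2
  have a1 : (1 - mu d k) * (U ^ m * conjL U ^ m) = T1 := by
    have h := one_sub_mu_mul (p := m) (q := m) hQ h1 (fun y => by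
      unfold W1; rw [mul_pow]) (by omega) hℓ hℓ1
    rw [h, hT1]
    have : m + m - 1 = 2 * m - 1 := by omega
    rw [this]
  have a2 : (1 - mu d k) * (U ^ (m + 1) * conjL U ^ (m - 1)) = T2 := by
    have h := one_sub_mu_mul (p := m + 1) (q := m - 1) hQ h2 (fun y => by
      unfold W2; rfl) (by omega) hℓ hℓ1
    rw [h, hT2]
    have : m + 1 + (m - 1) - 1 = 2 * m - 1 := by omega
    rw [this]
  have e1 : BW m U v - mu d k * BW m U v = (-Complex.I) • (((m + 1 : ℕ) : WA d k) * (T1 * v) +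
      (m : WA d k) * (T2 * conjL v)) := by
    have e0 : BW m U v - mu d k * BW m U v = (1 - mu d k) * BW m U v := by ring
    rw [e0, ← a1, ← a2]
    unfold BW
    rw [mul_smul_comm]
    congr 1
    push_cast
    ring
  rw [e1, Nn_smul, norm_neg, Complex.norm_I, one_mul]
  have n1 := Nn_natCast_mul_le hℓ.le hℓ1 hj (m + 1) (T1 * v)
  have n2 := Nn_natCast_mul_le hℓ.le hℓ1 hj m (T2 * conjL v)
  have n3 := Nn_mul_le hℓ.le hℓ1 hj T1 v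
  have n4 := Nn_mul_le hℓ.le hℓ1 hj T2 (conjL v)
  rw [Nn_conjL] at n4
  push_cast at n1
  refine (Nn_add_le hℓ.le hℓ1 hj _ _).trans ?_
  have hm0 : (0 : ℝ) ≤ m := Nat.cast_nonneg m
  calc _ ≤ ((m : ℝ) + 1) * (Nn ℓ j T1 * Nn ℓ j v) + m * (Nn ℓ j T2 * Nn ℓ j v) :=
        add_le_add (n1.trans (by gcongr)) (n2.trans (by gcongr))
    _ = _ := by ring

end Vale.Agent.P139.L
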